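import Vale.Agent.P134.H787.StartEnd
import Vale.Agent.P134.H370.HeightP

set_option linter.all false

/-! The inputs (2.0), (2.2'), (2.3) of Part 2 from `H370`; Part 2 is reduced to the step. -/

open MeasureTheory Filter Topology

namespace Vale.Agent.P134.H787

open Vale.Agent.P134 Vale.Agent.P134.SM Vale.Agent.P134.M4
open Vale.Agent.P134.H370

theorem p20 : P20 := by
  refine ⟨max (2 ^ (4 - 1) * (DD 4 * (80 + 2 * (4:ℕ) ^ 2))) (2 ^ (4 - 1) * (DD 4 * (24 + (4:ℕ)))),
    ?_, ?_⟩
  · refine le_trans ?_ (le_max_right _ _)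
    unfold DD
    positivity
  · intro v hv a R H hR hH ha hF
    have h1 := H370.JJ_le (n := 4) (by norm_num) hv (by linarith : 0 < R) ha hH hF
    have h2 := H370.J0_le (n := 4) (by norm_num) hv (by linarith : 0 < R) hH hF
    have hR3 : 0 ≤ R ^ 3 := by positivity
    constructor
    · refine h1.trans ?_
      have e : (4 - 1 : ℕ) = 3 := rfl
      rw [e]
      apply mul_le_mul_of_nonneg_right _ hR3
      apply mul_le_mul_of_nonneg_right _ (sq_nonneg _)
      exact le_max_left _ _
    · refine h2.trans ?_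
      have e : (4 - 1 : ℕ) = 3 := rfl
      rw [e]
      apply mul_le_mul_of_nonneg_right _ hR3
      apply mul_le_mul_of_nonneg_right _ (by linarith)
      exact le_max_right _ _

theorem p22 : P22 := by
  refine ⟨832 * 2 ^ (4 - 1) + 10, by positivity, ?_⟩
  intro v hv R hR
  have h1 := PA_le' (n := 4) (p := 3) (a := 0) hv (by linarith : 0 < R) (by simp; linarith)
  have e : (4 - 1 : ℕ) = 3 := rfl
  rw [e] at h1 ⊢
  have hR3 : 0 ≤ R ^ 3 := by positivity
  have hJ : 0 ≤ JJ v 3 0 R := JJ_nonneg _ _ _ _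
  have hT : 0 ≤ R ^ 2 * TILT v 3 R := mul_nonneg (sq_nonneg _) (TILT_nonneg _ _ _)
  nlinarith

theorem p23 : P23 := by
  obtain ⟨C, hC1, hC⟩ := height_ball (n := 4) (3 : Fin 4)
  refine ⟨C, by linarith, ?_⟩
  intro v hv a R hR z hz hvz
  exact hC v hv a R hR z hz hvz

/-- Part 2 from the improvement step. -/
theorem part_two' (hstep : ∀ u : (Fin 4 → ℝ) → ℝ, Sol u → (∀ x, |u x| < 1) → |u 0| ≤ 3 / 4 →
    ST u → OUT1 u → STEP u) : StF := part_two p20 p22 p23 hstep

end Vale.Agent.P134.H787
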