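import Mathlib.Analysis.SpecialFunctions.Log.Basic
import Mathlib.Analysis.SpecialFunctions.Pow.Real
import Mathlib.Analysis.SpecialFunctions.Pow.Asymptotics

set_option linter.all false

/-! Abstract iteration of the improvement of flatness: a predicate `S R H` (height `H` at scale
`R`), monotone in both arguments, which improves at every scale where `C₁ log R ≤ H ≤ c₁ R` and
holds with `H = ε R` at arbitrarily large scales, holds with `H = K log R` at all large scales. -/

open Filter Topology

namespace Vale.Agent.P134.H787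

/-- `log R ≤ c R` for large `R`. -/
lemma log_le_mul (C : ℝ) {c : ℝ} (hc : 0 < c) : ∃ R0 : ℝ, 1 ≤ R0 ∧ ∀ R, R0 ≤ R →
    C * Real.log R ≤ c * R := by
  have h := (Real.isLittleO_log_id_atTop).const_mul_left C
  have h2 := h.def hc
  obtain ⟨R0, hR0⟩ := eventually_atTop.mp h2
  refine ⟨max R0 1, le_max_right _ _, fun R hR => ?_⟩
  have h3 := hR0 R ((le_max_left _ _).trans hR)
  have h1 : 1 ≤ R := (le_max_right _ _).trans hR
  simp only [Real.norm_eq_abs, id] at h3
  rw [abs_of_nonneg (by linarith : (0:ℝ) ≤ R)] at h3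
  exact (le_abs_self _).trans h3

/-- The iteration. -/
theorem iter_core {S : ℝ → ℝ → Prop}
    (m1 : ∀ R H H', S R H → H ≤ H' → S R H')
    (m2 : ∀ R R' H, S R H → 0 < R' → R' ≤ R → S R' H)
    {θ C1 c1 R1 : ℝ} (hθ0 : 0 < θ) (hθ1 : θ < 1) (hc1 : 0 < c1)
    (step : ∀ R H, R1 ≤ R → C1 * Real.log R ≤ H → H ≤ c1 * R → S R H → S (θ * R) (θ * H))
    (start : ∀ ε : ℝ, 0 < ε → ∀ R0 : ℝ, ∃ R, R0 ≤ R ∧ S R (ε * R)) :
    ∃ K R0 : ℝ, 0 < K ∧ 1 ≤ R0 ∧ ∀ R, R0 ≤ R → S R (K * Real.log R) := by
  set K : ℝ := max C1 1 with hK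
  have hK1 : 1 ≤ K := le_max_right _ _
  have hKC : C1 ≤ K := le_max_left _ _
  obtain ⟨R2, hR21, hR2⟩ := log_le_mul K hc1
  -- `(1-θ) log R ≥ log (1/θ)` and `R ≥ 1/θ`
  set R3 : ℝ := Real.exp (Real.log (1 / θ) / (1 - θ)) with hR3
  set R0 : ℝ := max (max (max R1 R2) R3) (max (1 / θ) 3) with hR0
  have g1 : R1 ≤ R0 := (le_max_left _ _).trans ((le_max_left _ _).trans (le_max_left _ _))
  have g2 : R2 ≤ R0 := (le_max_right _ _).trans ((le_max_left _ _).trans (le_max_left _ _))
  have g3 : R3 ≤ R0 := (le_max_right _ _).trans (le_max_left _ _)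
  have g4 : 1 / θ ≤ R0 := (le_max_left _ _).trans (le_max_right _ _)
  have g5 : 3 ≤ R0 := (le_max_right _ _).trans (le_max_right _ _)
  have hlog3 : ∀ R, R0 ≤ R → Real.log (1 / θ) ≤ (1 - θ) * Real.log R := by
    intro R hR
    have h1 : Real.log R3 ≤ Real.log R := Real.log_le_log (Real.exp_pos _) (g3.trans hR)
    rw [hR3, Real.log_exp] at h1
    rw [div_le_iff₀ (by linarith)] at h1
    linarith
  have hlogpos : ∀ R, R0 ≤ R → 0 < Real.log R := fun R hR =>
    Real.log_pos (by linarith)
  refine ⟨2 * K, R0, by linarith, by linarith, fun R hR => ?_⟩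
  have hRpos : 0 < R := by linarith
  have hLR := hlogpos R hR
  -- choice of ε
  set ε : ℝ := min c1 (K * Real.log R * θ / R) with hε
  have hε0 : 0 < ε := by
    apply lt_min hc1
    have : 0 < K := by linarith
    positivity
  obtain ⟨P, hP, hSP⟩ := start ε hε0 R
  have hPpos : 0 < P := lt_of_lt_of_le hRpos hP
  -- induction
  have key : ∀ k : ℕ, R ≤ θ ^ k * P →
      S (θ ^ k * P) (max (ε * (θ ^ k * P)) (K * Real.log (θ ^ k * P))) := by
    intro k
    induction k with
    | zero =>
        intro _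
        simp only [pow_zero, one_mul]
        exact m1 _ _ _ hSP (le_max_left _ _)
    | succ k ih =>
        intro hk
        set Q : ℝ := θ ^ k * P with hQ
        have hQpos : 0 < Q := by positivity
        have e1 : θ ^ (k + 1) * P = θ * Q := by rw [hQ, pow_succ]; ring
        rw [e1] at hk ⊢
        have hRQ : R ≤ Q := by nlinarith
        have ih' := ih hRQ
        have hRQ0 : R0 ≤ Q := hR.trans hRQ
        have hLQ := hlogpos Q hRQ0
        have s1 : C1 * Real.log Q ≤ max (ε * Q) (K * Real.log Q) :=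
          (mul_le_mul_of_nonneg_right hKC hLQ.le).trans (le_max_right _ _)
        have s2 : max (ε * Q) (K * Real.log Q) ≤ c1 * Q := by
          apply max_le
          · exact mul_le_mul_of_nonneg_right (min_le_left _ _) hQpos.le
          · exact hR2 Q (g2.trans hRQ0)
        have s3 := step Q _ (g1.trans hRQ0) s1 s2 ih'
        apply m1 _ _ _ s3
        rw [mul_max_of_nonneg _ _ hθ0.le]
        apply max_le_max
        · apply le_of_eq; ring
        · have h1 : Real.log (θ * Q) = Real.log Q - Real.log (1 / θ) := by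
            rw [Real.log_mul hθ0.ne' hQpos.ne', one_div, Real.log_inv]; ring
          rw [h1]
          have h2 := hlog3 Q hRQ0
          have h3 : θ * Real.log Q ≤ Real.log Q - Real.log (1 / θ) := by linarith
          calc θ * (K * Real.log Q) = K * (θ * Real.log Q) := by ring
            _ ≤ _ := mul_le_mul_of_nonneg_left h3 (by linarith)
  -- choice of k
  obtain ⟨k, hk1, hk2⟩ : ∃ k : ℕ, R ≤ θ ^ k * P ∧ θ ^ (k + 1) * P < R := by
    have hlim : ∃ k : ℕ, θ ^ (k + 1) * P < R := by
      have h1 : Tendsto (fun k : ℕ => θ ^ (k + 1) * P) atTop (𝓝 (0 * P)) :=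
        (((tendsto_pow_atTop_nhds_zero_of_lt_one hθ0.le hθ1).comp
          (tendsto_add_atTop_nat 1)).mul_const P)
      rw [zero_mul] at h1
      exact (h1.eventually (gt_mem_nhds hRpos)).exists
    classical
    refine ⟨Nat.find hlim, ?_, Nat.find_spec hlim⟩
    by_contra hcon
    push Not at hcon
    have hne : Nat.find hlim ≠ 0 := by
      intro h0
      rw [h0] at hcon
      simp at hcon
      linarith
    obtain ⟨j, hj⟩ := Nat.exists_eq_succ_of_ne_zero hne
    have hmin := Nat.find_min hlim (m := j) (by omega)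
    apply hmin
    rw [hj] at hcon
    exact hcon
  have hS := key k hk1
  set Q : ℝ := θ ^ k * P with hQ
  have hQpos : 0 < Q := by positivity
  have hQR : Q ≤ R * (1 / θ) := by
    have e1 : θ ^ (k + 1) * P = θ * Q := by rw [hQ, pow_succ]; ring
    rw [e1] at hk2
    rw [mul_one_div, le_div_iff₀ hθ0]
    linarith
  have hS2 := m2 _ R _ hS hRpos hk1
  apply m1 _ _ _ hS2
  apply max_le
  · have h1 : ε * Q ≤ (K * Real.log R * θ / R) * (R * (1 / θ)) :=
      mul_le_mul (min_le_right _ _) hQR hQpos.le (by positivity)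
    have h2 : (K * Real.log R * θ / R) * (R * (1 / θ)) = K * Real.log R := by
      field_simp
    rw [h2] at h1
    have : 0 < K * Real.log R := by positivity
    linarith
  · have h1 : Real.log Q ≤ Real.log (R * (1 / θ)) := Real.log_le_log hQpos hQR
    rw [Real.log_mul hRpos.ne' (by positivity)] at h1
    have h2 : Real.log (1 / θ) ≤ Real.log R := Real.log_le_log (by positivity) (g4.trans hR)
    have h3 : Real.log Q ≤ 2 * Real.log R := by linarith
    calc K * Real.log Q ≤ K * (2 * Real.log R) := mul_le_mul_of_nonneg_left h3 (by linarith)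
      _ = _ := by ring

end Vale.Agent.P134.H787
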