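import Vale.Agent.P134.SM.Nu
import Mathlib.MeasureTheory.Measure.Haar.InnerProductSpace
import Mathlib.Analysis.InnerProductSpace.PiL2

set_option linter.all false

/-! Rotations of the coordinate space `Fin n → ℝ` and the invariance of all the quantities attached
to a solution. -/

open MeasureTheory Filter Topology
open scoped InnerProductSpace

namespace Vale.Agent.P134.H787

open Vale.Agent.P134 Vale.Agent.P134.SM

variable {n : ℕ} {u f g φ : (Fin n → ℝ) → ℝ} {x : Fin n → ℝ}

/-- Linear isometries of Euclidean space. -/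
abbrev LI (n : ℕ) := EuclideanSpace ℝ (Fin n) ≃ₗᵢ[ℝ] EuclideanSpace ℝ (Fin n)

/-- The action of a linear isometry on `Fin n → ℝ`. -/
noncomputable def rot (L : LI n) : (Fin n → ℝ) →L[ℝ] (Fin n → ℝ) :=
  ((EuclideanSpace.equiv (Fin n) ℝ).toContinuousLinearMap).comp
    ((L.toContinuousLinearEquiv.toContinuousLinearMap).comp
      ((EuclideanSpace.equiv (Fin n) ℝ).symm.toContinuousLinearMap))

lemma rot_apply (L : LI n) (x : Fin n → ℝ) :
    rot L x = WithLp.ofLp (L (WithLp.toLp 2 x)) := rfl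

lemma toLp_rot (L : LI n) (x : Fin n → ℝ) :
    WithLp.toLp 2 (rot L x) = L (WithLp.toLp 2 x) := rfl

lemma rot_symm_rot (L : LI n) (x : Fin n → ℝ) : rot L.symm (rot L x) = x := by
  rw [rot_apply, toLp_rot, L.symm_apply_apply]

lemma rot_rot_symm (L : LI n) (x : Fin n → ℝ) : rot L (rot L.symm x) = x := by
  rw [rot_apply, toLp_rot, L.apply_symm_apply]

lemma sum_mul_eq_inner (a b : Fin n → ℝ) :
    ∑ i, a i * b i = ⟪(WithLp.toLp 2 a : EuclideanSpace ℝ (Fin n)), WithLp.toLp 2 b⟫_ℝ := by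
  rw [PiLp.inner_apply]
  exact Finset.sum_congr rfl fun i _ => by
    simp [mul_comm]

/-- Rotations preserve the scalar product. -/
lemma rot_dot (L : LI n) (a b : Fin n → ℝ) : ∑ i, rot L a i * rot L b i = ∑ i, a i * b i := by
  rw [sum_mul_eq_inner, sum_mul_eq_inner, toLp_rot, toLp_rot, L.inner_map_map]

lemma rot_dot_left (L : LI n) (a b : Fin n → ℝ) :
    ∑ i, rot L a i * b i = ∑ i, a i * rot L.symm b i := by
  have := rot_dot L a (rot L.symm b)
  rw [rot_rot_symm] at this
  exact this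

lemma rot_sq (L : LI n) (a : Fin n → ℝ) : ∑ i, rot L a i ^ 2 = ∑ i, a i ^ 2 := by
  have := rot_dot L a a
  simpa [pow_two] using this

lemma rho_rot (L : LI n) (x : Fin n → ℝ) : rho Finset.univ (rot L x) = rho Finset.univ x :=
  rot_sq L x

/-- The coefficients `c j i = (L e_j)_i`. -/
lemma rot_single (L : LI n) (j : Fin n) (a : Fin n → ℝ) :
    ∑ i, rot L (Pi.single j 1) i * a i = rot L.symm a j := by
  rw [rot_dot_left]
  simp [Pi.single_apply]

lemma rot_eq_sum (L : LI n) (x : Fin n → ℝ) : rot L x = ∑ j, x j • rot L (Pi.single j 1) := by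
  conv_lhs => rw [pi_eq_sum_univ' x]
  rw [map_sum]
  exact Finset.sum_congr rfl fun j _ => by rw [map_smul]

/-- Rows and columns: both are orthonormal. -/
lemma rot_orth (L : LI n) (i k : Fin n) :
    ∑ j, rot L (Pi.single j 1) i * rot L (Pi.single j 1) k = if i = k then 1 else 0 := by
  have e : ∀ (i j : Fin n), rot L (Pi.single j 1) i = rot L.symm (Pi.single i 1) j := by
    intro i j
    have := rot_single L j (Pi.single i 1)
    rw [← this]
    simp [Pi.single_apply]
  simp_rw [e]
  rw [rot_dot]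
  simp [Pi.single_apply, eq_comm]

/-! ### Derivatives -/

lemma pd_comp_rot {L : LI n} (hf : DifferentiableAt ℝ f (rot L x)) (j : Fin n) :
    pd j (fun y => f (rot L y)) x = dd (rot L (Pi.single j 1)) f (rot L x) := by
  rw [dd_eq_fderiv]
  unfold pd
  have h := (hf.hasFDerivAt.comp x (rot L).hasFDerivAt).fderiv
  rw [show (fun y => f (rot L y)) = f ∘ rot L from rfl, h]
  rfl

lemma pd_comp_rot' {L : LI n} (hf : DifferentiableAt ℝ f (rot L x)) (j : Fin n) :
    pd j (fun y => f (rot L y)) x = rot L.symm (fun i => pd i f (rot L x)) j := by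
  rw [pd_comp_rot hf, ← rot_single]
  rfl

lemma dd_comp_rot {L : LI n} (hf : DifferentiableAt ℝ f (rot L x)) (a : Fin n → ℝ) :
    dd a (fun y => f (rot L y)) x = dd (rot L a) f (rot L x) := by
  rw [dd_eq_fderiv, dd_eq_fderiv]
  have h := (hf.hasFDerivAt.comp x (rot L).hasFDerivAt).fderiv
  rw [show (fun y => f (rot L y)) = f ∘ rot L from rfl, h]
  rfl

lemma gg_comp_rot {L : LI n} (hf : DifferentiableAt ℝ f (rot L x))
    (hg : DifferentiableAt ℝ g (rot L x)) :
    gg (fun y => f (rot L y)) (fun y => g (rot L y)) x = gg f g (rot L x) := by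
  unfold gg
  simp_rw [pd_comp_rot' hf, pd_comp_rot' hg]
  exact rot_dot L.symm _ _

lemma gs_comp_rot {L : LI n} (hf : DifferentiableAt ℝ f (rot L x)) :
    gs (fun y => f (rot L y)) x = gs f (rot L x) := by
  rw [← gg_self, ← gg_self, gg_comp_rot hf hf]

lemma pd_pd_comp_rot {L : LI n} (hf : ∀ᶠ y in 𝓝 (rot L x), DifferentiableAt ℝ f y)
    (hf2 : ∀ i, DifferentiableAt ℝ (pd i f) (rot L x)) (j k : Fin n) :
    pd k (pd j (fun y => f (rot L y))) x
      = ∑ i, ∑ l, rot L (Pi.single j 1) i * rot L (Pi.single k 1) l * pd l (pd i f) (rot L x) := by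
  have h1 : pd j (fun y => f (rot L y))
      =ᶠ[𝓝 x] fun y => ∑ i, rot L (Pi.single j 1) i * pd i f (rot L y) := by
    have h2 := (rot L).continuous.continuousAt (x := x) |>.eventually hf
    filter_upwards [h2] with y hy
    rw [pd_comp_rot hy]; rfl
  have h3 : ∀ i, DifferentiableAt ℝ (fun y => pd i f (rot L y)) x := fun i =>
    (hf2 i).comp x (rot L).differentiableAt
  rw [pd_congr h1, pd_sum (F := fun i y => rot L (Pi.single j 1) i * pd i f (rot L y)) Finset.univ
    (fun i _ => (h3 i).const_mul _)]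
  refine Finset.sum_congr rfl fun i _ => ?_
  rw [pd_mul (f := fun _ => rot L (Pi.single j 1) i) (differentiableAt_const _) (h3 i), pd_const,
    pd_comp_rot (f := pd i f) (hf2 i)]
  unfold dd
  rw [mul_zero, add_zero, Finset.mul_sum]
  exact Finset.sum_congr rfl fun l _ => by ring

lemma lap_comp_rot_at {L : LI n} (hf : ContDiffAt ℝ 2 f (rot L x)) :
    lap (fun y => f (rot L y)) x = lap f (rot L x) := by
  unfold lap
  have e : ∀ j, pd j (pd j (fun y => f (rot L y))) x
      = ∑ i, ∑ l, (rot L (Pi.single j 1) i * rot L (Pi.single j 1) l) * pd l (pd i f) (rot L x) :=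
    fun j => pd_pd_comp_rot (da_ev hf) (fun i => da_pd hf i) j j
  simp_rw [e]
  rw [Finset.sum_comm]
  have e2 : ∀ i, ∑ j, ∑ l, (rot L (Pi.single j 1) i * rot L (Pi.single j 1) l)
      * pd l (pd i f) (rot L x) = pd i (pd i f) (rot L x) := by
    intro i
    rw [Finset.sum_comm]
    simp_rw [← Finset.sum_mul, rot_orth]
    simp
  exact Finset.sum_congr rfl fun i _ => e2 i

lemma lap_comp_rot {L : LI n} (hf : ContDiff ℝ 2 f) :
    lap (fun y => f (rot L y)) x = lap f (rot L x) := lap_comp_rot_at hf.contDiffAt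

lemma hs_comp_rot_at {L : LI n} (hf : ContDiffAt ℝ 2 f (rot L x)) :
    hs (fun y => f (rot L y)) x = hs f (rot L x) := by
  unfold hs
  set H : Fin n → Fin n → ℝ := fun l i => pd l (pd i f) (rot L x) with hH
  have e : ∀ k j, pd k (pd j (fun y => f (rot L y))) x
      = rot L.symm (fun l => rot L.symm (H l) j) k := by
    intro k j
    rw [pd_pd_comp_rot (da_ev hf) (fun i => da_pd hf i) j k, ← rot_single L k]
    rw [Finset.sum_comm]
    refine Finset.sum_congr rfl fun l _ => ?_
    rw [← rot_single L j, Finset.mul_sum]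
    exact Finset.sum_congr rfl fun i _ => by rw [hH]; ring
  simp_rw [e]
  rw [Finset.sum_comm]
  have e2 : ∀ j, ∑ k, rot L.symm (fun l => rot L.symm (H l) j) k ^ 2
      = ∑ l, rot L.symm (H l) j ^ 2 := fun j => rot_sq L.symm _
  simp_rw [e2]
  rw [Finset.sum_comm]
  exact Finset.sum_congr rfl fun l _ => rot_sq L.symm (H l)

lemma hs_comp_rot {L : LI n} (hf : ContDiff ℝ 2 f) :
    hs (fun y => f (rot L y)) x = hs f (rot L x) := hs_comp_rot_at hf.contDiffAt

/-! ### Solutions -/

lemma contDiff_comp_rot {k : WithTop ℕ∞} (L : LI n) (hf : ContDiff ℝ k f) :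
    ContDiff ℝ k (fun y => f (rot L y)) := hf.comp (rot L).contDiff

theorem Sol.rot (hu : Sol u) (L : LI n) : Sol (fun y => u (rot L y)) where
  c2 := contDiff_comp_rot L hu.c2
  bd := fun x => hu.bd _
  eq := fun x => by
    have h1 := lap_comp_rot (L := L) (x := x) hu.c2
    have h2 : lap u (H787.rot L x) = u (H787.rot L x) ^ 3 - u (H787.rot L x) := hu.eq _
    rw [h2] at h1
    exact h1

lemma psi_comp_rot (L : LI n) : psi (fun y => u (rot L y)) x = psi u (rot L x) := rfl

lemma defi_comp_rot (hu : Differentiable ℝ u) (L : LI n) :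
    defi (fun y => u (rot L y)) x = defi u (rot L x) := by
  rw [defi_eq, defi_eq, gs_comp_rot (hu _)]; rfl

lemma en_comp_rot (hu : Differentiable ℝ u) (L : LI n) :
    en (fun y => u (rot L y)) x = en u (rot L x) := by
  have h := gs_comp_rot (L := L) (x := x) (hu _)
  unfold gs at h
  unfold en
  rw [h]

lemma wn_comp_rot' {L : LI n} (hu : DifferentiableAt ℝ u (rot L x)) :
    wn (fun y => u (rot L y)) x = wn u (rot L x) := by
  unfold wn
  rw [gs_comp_rot hu]

/-- `|∇ν|²` is invariant. -/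
lemma dn_comp_rot (hu : Sol u) {L : LI n} (h0 : 0 < gs u (rot L x)) :
    dn (fun y => u (rot L y)) x = dn u (rot L x) := by
  have hu' := Sol.rot hu L
  have hd : Differentiable ℝ u := hu.c2.differentiable (by norm_num)
  have h0' : 0 < gs (fun y => u (rot L y)) x := by rw [gs_comp_rot (hd _)]; exact h0
  have h1 := Sol.wn_sq_dn hu h0
  have h2 := Sol.wn_sq_dn hu' h0'
  have e1 : wn (fun y => u (rot L y)) = fun y => wn u (rot L y) := by
    funext y; exact wn_comp_rot' (hd _)
  have e2 : gs (wn (fun y => u (rot L y))) x = gs (wn u) (rot L x) := by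
    rw [e1]
    exact gs_comp_rot (da (Sol.wn_c2 hu h0))
  rw [e2, hs_comp_rot hu.c2, wn_comp_rot' (hd _), ← h1] at h2
  have h3 : wn u (rot L x) ^ 2 ≠ 0 := by
    rw [wn_sq]; exact h0.ne'
  exact mul_left_cancel₀ h3 h2

/-! ### Integration -/

lemma rot_measurePreserving (L : LI n) :
    MeasurePreserving (rot L : (Fin n → ℝ) → (Fin n → ℝ)) volume volume := by
  have h1 := PiLp.volume_preserving_toLp (Fin n)
  have h2 : MeasurePreserving (L : EuclideanSpace ℝ (Fin n) → EuclideanSpace ℝ (Fin n))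
      volume volume := L.measurePreserving
  have h3 := PiLp.volume_preserving_ofLp (Fin n)
  exact h3.comp (h2.comp h1)

lemma rot_measurableEmbedding (L : LI n) :
    MeasurableEmbedding (rot L : (Fin n → ℝ) → (Fin n → ℝ)) := by
  have hc : Continuous (rot L.symm) := (rot L.symm).continuous
  have e : (rot L : (Fin n → ℝ) → (Fin n → ℝ)) = (Homeomorph.mk
    ⟨rot L, rot L.symm, rot_symm_rot L, rot_rot_symm L⟩ (rot L).continuous hc) := rfl
  rw [e]
  exact Homeomorph.measurableEmbedding _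

lemma integral_rot (L : LI n) (f : (Fin n → ℝ) → ℝ) : ∫ x, f (rot L x) = ∫ x, f x :=
  (rot_measurePreserving L).integral_comp (rot_measurableEmbedding L) f

lemma setIntegral_rot (L : LI n) (f : (Fin n → ℝ) → ℝ) (A : Set (Fin n → ℝ)) :
    ∫ x in rot L ⁻¹' A, f (rot L x) = ∫ x in A, f x :=
  (rot_measurePreserving L).setIntegral_preimage_emb (rot_measurableEmbedding L) f A

lemma setIntegral_rho_rot (L : LI n) (f : (Fin n → ℝ) → ℝ) (r : ℝ) :
    ∫ x in {x : Fin n → ℝ | rho Finset.univ x ≤ r}, f (rot L x)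
      = ∫ x in {x : Fin n → ℝ | rho Finset.univ x ≤ r}, f x := by
  rw [← setIntegral_rot L f {x : Fin n → ℝ | rho Finset.univ x ≤ r}]
  congr 2
  ext x
  simp [rho_rot]

lemma hcs_comp_rot (L : LI n) (hf : HasCompactSupport f) :
    HasCompactSupport (fun y => f (rot L y)) := by
  apply HasCompactSupport.intro (K := rot L.symm '' tsupport f)
    (hf.isCompact.image (rot L.symm).continuous)
  intro x hx
  apply image_eq_zero_of_notMem_tsupport
  intro h
  exact hx ⟨rot L x, h, rot_symm_rot L x⟩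

/-- The box is mapped into a bigger box. -/
lemma rot_mem_box (L : LI n) {r : ℝ} (hr : 0 ≤ r) (hx : x ∈ box n r) : rot L x ∈ box n (n * r) := by
  rw [mem_box] at hx ⊢
  intro i
  rcases Nat.eq_zero_or_pos n with h0 | h0
  · subst h0; exact i.elim0
  have h1 : rot L x i ^ 2 ≤ ∑ i, x i ^ 2 := by
    rw [← rot_sq L x]
    exact Finset.single_le_sum (f := fun i => rot L x i ^ 2) (fun _ _ => sq_nonneg _)
      (Finset.mem_univ i)
  have h2 : ∑ i, x i ^ 2 ≤ n * r ^ 2 := by
    calc ∑ i, x i ^ 2 ≤ ∑ _i : Fin n, r ^ 2 := by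
          apply Finset.sum_le_sum
          intro i _
          rw [← sq_abs]
          exact pow_le_pow_left₀ (abs_nonneg _) (hx i) 2
      _ = n * r ^ 2 := by simp
  apply abs_le_of_sq_le_sq _ (by positivity)
  have h3 : (1:ℝ) ≤ n := by exact_mod_cast h0
  nlinarith [mul_nonneg (sub_nonneg.mpr h3) (mul_nonneg (show (0:ℝ) ≤ n by linarith) (sq_nonneg r))]

/-! ### Existence -/

/-- An orthonormal family of two vectors is the image of two coordinate vectors. -/
theorem exists_rot_two {p q : Fin n} (hpq : p ≠ q) {a b : Fin n → ℝ} (ha : ∑ i, a i ^ 2 = 1)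
    (hb : ∑ i, b i ^ 2 = 1) (hab : ∑ i, a i * b i = 0) :
    ∃ L : LI n, rot L (Pi.single p 1) = a ∧ rot L (Pi.single q 1) = b := by
  classical
  set v : Fin n → EuclideanSpace ℝ (Fin n) := fun i =>
    if i = p then WithLp.toLp 2 a else WithLp.toLp 2 b with hv
  set s : Set (Fin n) := {p, q} with hs
  have hna : ‖(WithLp.toLp 2 a : EuclideanSpace ℝ (Fin n))‖ = 1 := by
    have h1 : ⟪(WithLp.toLp 2 a : EuclideanSpace ℝ (Fin n)), WithLp.toLp 2 a⟫_ℝ = 1 := by
      rw [← sum_mul_eq_inner]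
      simpa [pow_two] using ha
    rw [real_inner_self_eq_norm_sq] at h1
    nlinarith [norm_nonneg (WithLp.toLp 2 a : EuclideanSpace ℝ (Fin n))]
  have hnb : ‖(WithLp.toLp 2 b : EuclideanSpace ℝ (Fin n))‖ = 1 := by
    have h1 : ⟪(WithLp.toLp 2 b : EuclideanSpace ℝ (Fin n)), WithLp.toLp 2 b⟫_ℝ = 1 := by
      rw [← sum_mul_eq_inner]
      simpa [pow_two] using hb
    rw [real_inner_self_eq_norm_sq] at h1
    nlinarith [norm_nonneg (WithLp.toLp 2 b : EuclideanSpace ℝ (Fin n))]
  have hi : ⟪(WithLp.toLp 2 a : EuclideanSpace ℝ (Fin n)), WithLp.toLp 2 b⟫_ℝ = 0 := by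
    rw [← sum_mul_eq_inner]; exact hab
  have hi' : ⟪(WithLp.toLp 2 b : EuclideanSpace ℝ (Fin n)), WithLp.toLp 2 a⟫_ℝ = 0 := by
    rw [real_inner_comm]; exact hi
  have hqp : q ≠ p := hpq.symm
  have hvp : v p = WithLp.toLp 2 a := by simp [hv]
  have hvq : v q = WithLp.toLp 2 b := by simp [hv, hqp]
  have horth : Orthonormal ℝ (s.restrict v) := by
    constructor
    · rintro ⟨i, hi'⟩
      show ‖v i‖ = 1
      rcases hi' with h | h
      · rw [h, hvp]; exact hna
      · rw [show i = q from h, hvq]; exact hnb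
    · rintro ⟨i, h1⟩ ⟨j, h2⟩ hij
      have hij' : i ≠ j := fun h => hij (Subtype.ext h)
      show ⟪v i, v j⟫_ℝ = 0
      rcases h1 with h | h
      · rcases h2 with h' | h'
        · exact absurd (h.trans h'.symm) hij'
        · rw [h, show j = q from h', hvp, hvq]; exact hi
      · rcases h2 with h' | h'
        · rw [show i = q from h, h', hvp, hvq]; exact hi'
        · exact absurd ((show i = q from h).trans (show j = q from h').symm) hij'
  obtain ⟨bb, hbb⟩ := Orthonormal.exists_orthonormalBasis_extension_of_card_eq (𝕜 := ℝ)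
    (E := EuclideanSpace ℝ (Fin n)) (ι := Fin n) (by simp) horth
  refine ⟨bb.repr.symm, ?_, ?_⟩
  · have h1 : bb.repr.symm (EuclideanSpace.single p 1) = bb p := bb.repr_symm_single p
    have h2 := hbb p (by simp [hs])
    rw [hvp] at h2
    have h3 : (WithLp.toLp 2 (Pi.single p (1:ℝ)) : EuclideanSpace ℝ (Fin n))
      = EuclideanSpace.single p 1 := rfl
    rw [rot_apply, h3, h1, h2]
  · have h1 : bb.repr.symm (EuclideanSpace.single q 1) = bb q := bb.repr_symm_single q
    have h2 := hbb q (by simp [hs])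
    rw [hvq] at h2
    have h3 : (WithLp.toLp 2 (Pi.single q (1:ℝ)) : EuclideanSpace ℝ (Fin n))
      = EuclideanSpace.single q 1 := rfl
    rw [rot_apply, h3, h1, h2]

/-- Every unit vector is the image of any coordinate vector. -/
theorem exists_rot (q : Fin n) {a : Fin n → ℝ} (ha : ∑ i, a i ^ 2 = 1) :
    ∃ L : LI n, rot L (Pi.single q 1) = a := by
  classical
  have hna : ‖(WithLp.toLp 2 a : EuclideanSpace ℝ (Fin n))‖ = 1 := by
    have h1 : ⟪(WithLp.toLp 2 a : EuclideanSpace ℝ (Fin n)), WithLp.toLp 2 a⟫_ℝ = 1 := by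
      rw [← sum_mul_eq_inner]
      simpa [pow_two] using ha
    rw [real_inner_self_eq_norm_sq] at h1
    nlinarith [norm_nonneg (WithLp.toLp 2 a : EuclideanSpace ℝ (Fin n))]
  have horth : Orthonormal ℝ (({q} : Set (Fin n)).restrict
      (fun _ : Fin n => (WithLp.toLp 2 a : EuclideanSpace ℝ (Fin n)))) := by
    constructor
    · rintro ⟨i, hi'⟩
      exact hna
    · rintro ⟨i, h1⟩ ⟨j, h2⟩ hij
      exact absurd (Subtype.ext ((show i = q from h1).trans (show j = q from h2).symm)) hij
  obtain ⟨bb, hbb⟩ := Orthonormal.exists_orthonormalBasis_extension_of_card_eq (𝕜 := ℝ)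
    (E := EuclideanSpace ℝ (Fin n)) (ι := Fin n) (by simp) horth
  refine ⟨bb.repr.symm, ?_⟩
  have h1 : bb.repr.symm (EuclideanSpace.single q 1) = bb q := bb.repr_symm_single q
  have h2 := hbb q (by simp)
  have h3 : (WithLp.toLp 2 (Pi.single q (1:ℝ)) : EuclideanSpace ℝ (Fin n))
    = EuclideanSpace.single q 1 := rfl
  rw [rot_apply, h3, h1, h2]

end Vale.Agent.P134.H787
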