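import Vale.Agent.P134.H787.Bridge
import Vale.Agent.P134.H787.Iter
import Vale.Agent.P134.H891.Plane
import Vale.Agent.P134.H370.Tilt
import Vale.Agent.P134.H919.Mono
import Vale.Agent.P134.M4.Defs
import Vale.Agent.P134.M4.End

set_option linter.all false

/-! Part 2 of M4': the start of the iteration (from the blow-down) and its end (tilt excess). -/

open MeasureTheory Filter Topology

namespace Vale.Agent.P134.H787

open Vale.Agent.P134 Vale.Agent.P134.SM Vale.Agent.P134.M4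
open Vale.Agent.P134.H891 (Psi gp GG TT ph mm kap esq_rot rot_single_dot sqrt2_pos sqrt2_sq
  one_lt_sqrt2 ph_nonneg mm_nonneg mm_le_one mm_hasCompactSupport continuous_mm continuous_Psi
  ph_contDiff ph_hasCompactSupport sq_le_esq)
open Vale.Agent.P134.H370 (gap JJ J0 TL TILT PA Ga tilt_le)

variable {u v : (Fin 4 → ℝ) → ℝ}

/-- Height `H` at scale `R` with respect to some plane through a point at distance at most `H` of
the centre. -/
def State (u : (Fin 4 → ℝ) → ℝ) (R H : ℝ) : Prop :=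
  ∃ (L : LI 4) (a : ℝ), |a| ≤ H ∧ H370.Flat (fun x => u (rot L x)) 3 a R H

lemma State.mono_H {R H H' : ℝ} (h : State u R H) (hH : H ≤ H') : State u R H' := by
  obtain ⟨L, a, ha, hF⟩ := h
  refine ⟨L, a, ha.trans hH, fun x hx => ⟨fun h1 => (hF x hx).1 (by linarith), fun h1 =>
    (hF x hx).2 (by linarith)⟩⟩

lemma State.mono_R {R R' H : ℝ} (h : State u R H) (h0 : 0 < R') (hR : R' ≤ R) :
    State u R' H := by
  obtain ⟨L, a, ha, hF⟩ := h
  refine ⟨L, a, ha, fun x hx => hF x (hx.trans (by gcongr))⟩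

/-! ### Rotation invariance -/

lemma esq_eq_rho (x : Fin 4 → ℝ) : esq x = rho Finset.univ x := rfl

lemma ph_rot (L : LI 4) (R : ℝ) (x : Fin 4 → ℝ) : ph R (rot L x) = ph R x := by
  unfold H891.ph H891.mm
  rw [esq_rot]

lemma TT_rot (hu : Sol u) (L : LI 4) (R : ℝ) :
    TT (fun _ => 1) (fun x => u (rot L x)) R = TT (fun _ => 1) u R := by
  rw [H891.TT_one_eq, H891.TT_one_eq]
  congr 1
  rw [← integral_rot L (fun x => en u x * ph R x)]
  refine integral_congr_ae (Eventually.of_forall fun x => ?_)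
  simp only []
  rw [en_comp_rot (hu.c2.differentiable (by norm_num)) L, ph_rot]

lemma TI_rot (hu : Sol u) (L : LI 4) (x : Fin 4 → ℝ) :
    TI u (rot L (Pi.single 3 1)) (rot L x) = TI (fun y => u (rot L y)) (Pi.single 3 1) x := by
  have hd : DifferentiableAt ℝ u (rot L x) := hu.c2.differentiable (by norm_num) _
  unfold TI
  set G : Fin 4 → ℝ := fun i => pd i u (rot L x) with hG
  have h1 : ∀ i, pd i (fun y => u (rot L y)) x = rot L.symm G i := fun i => pd_comp_rot' hd i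
  have h2 : ∀ i, (√2 * pd i u (rot L x) - psi u (rot L x) * rot L (Pi.single 3 1) i)
      = rot L (fun j => √2 * rot L.symm G j - psi u (rot L x) * (Pi.single 3 1 : Fin 4 → ℝ) j) i := by
    intro i
    have e : (fun j => √2 * rot L.symm G j - psi u (rot L x) * (Pi.single 3 1 : Fin 4 → ℝ) j)
        = √2 • rot L.symm G - psi u (rot L x) • (Pi.single 3 1 : Fin 4 → ℝ) := by
      ext j; simp
    rw [e, map_sub, map_smul, map_smul, rot_rot_symm]
    simp [hG]
  simp_rw [h2]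
  rw [rot_sq]
  refine Finset.sum_congr rfl fun i _ => ?_
  rw [h1]
  rfl

lemma TI_eq_TL (hu : Sol v) (x : Fin 4 → ℝ) : TI v (Pi.single 3 1) x = 2 * TL v 3 x := by
  unfold TI TL
  rw [← Finset.add_sum_erase Finset.univ _ (Finset.mem_univ (3 : Fin 4))]
  have h1 : ∀ i ∈ Finset.univ.erase (3 : Fin 4),
      (√2 * pd i v x - psi v x * (Pi.single 3 1 : Fin 4 → ℝ) i) ^ 2 = 2 * pd i v x ^ 2 := by
    intro i hi
    have : (Pi.single 3 1 : Fin 4 → ℝ) i = 0 := by
      simp [Pi.single_apply, (Finset.mem_erase.mp hi).1]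
    rw [this, mul_zero, sub_zero, mul_pow, sqrt2_sq]
  rw [Finset.sum_congr rfl h1, ← Finset.mul_sum]
  have h2 : (√2 * pd 3 v x - psi v x * (Pi.single 3 1 : Fin 4 → ℝ) 3) ^ 2
      = 2 * (pd 3 v x - psi v x / √2) ^ 2 := by
    have h3 := sqrt2_pos
    have e : √2 * pd 3 v x - psi v x * (Pi.single 3 1 : Fin 4 → ℝ) 3
        = √2 * (pd 3 v x - psi v x / √2) := by
      simp only [Pi.single_eq_same, mul_one]
      field_simp
    rw [e, mul_pow, sqrt2_sq]
  rw [h2]; ring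

lemma eb_zero_eq (r : ℝ) : eb (0 : Fin 4 → ℝ) r = {x | rho Finset.univ x ≤ r ^ 2} := by
  ext x
  simp [eb, dsq, rho]

lemma TL_nonneg (v : (Fin 4 → ℝ) → ℝ) (x : Fin 4 → ℝ) : 0 ≤ TL v 3 x := by
  unfold H370.TL
  exact add_nonneg (Finset.sum_nonneg fun _ _ => sq_nonneg _) (sq_nonneg _)

lemma TL_continuous (hu : Sol v) : Continuous (TL v 3) := by
  unfold H370.TL
  have c : ∀ i, Continuous (pd i v) := fun i => (contDiff_pd_one hu.c2).continuous
  exact (continuous_finset_sum _ fun i _ => (c i).pow 2).add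
    (((c 3).sub (hu.psi_contDiff.continuous.div_const _)).pow 2)

/-- The tilt integral is controlled by `TILT`. -/
lemma TI_le_TILT (hu : Sol u) (L : LI 4) {R : ℝ} (hR : 0 < R) :
    ∫ x in eb 0 (2 * R), TI u (rot L (Pi.single 3 1)) x
      ≤ 4 * TILT (fun x => u (rot L x)) 3 (4 * R) := by
  have hv := Sol.rot hu L
  have e1 : ∫ x in eb 0 (2 * R), TI u (rot L (Pi.single 3 1)) x
      = ∫ x in eb (0 : Fin 4 → ℝ) (2 * R), 2 * TL (fun y => u (rot L y)) 3 x := by
    rw [eb_zero_eq, ← setIntegral_rho_rot L (TI u (rot L (Pi.single 3 1)))]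
    refine integral_congr_ae (Eventually.of_forall fun x => ?_)
    simp only []
    rw [TI_rot hu, TI_eq_TL hv]
  rw [e1, H370.TILT, ← integral_const_mul]
  set v : (Fin 4 → ℝ) → ℝ := fun y => u (rot L y) with hvd
  have hm : MeasurableSet (eb (0 : Fin 4 → ℝ) (2 * R)) := measurableSet_eb _ _
  rw [← integral_indicator hm]
  apply integral_mono_of_nonneg
  · refine Eventually.of_forall fun x => Set.indicator_nonneg (fun y _ => ?_) x
    have := TL_nonneg v y
    positivity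
  · apply Integrable.const_mul
    exact ((TL_continuous hv).mul (ph_contDiff (4 * R)).continuous).integrable_of_hasCompactSupport
      (ph_hasCompactSupport (by positivity)).mul_left
  · refine Eventually.of_forall fun x => ?_
    simp only []
    have h0 := TL_nonneg v x
    have h1 := ph_nonneg (4 * R) x
    by_cases hx : x ∈ eb (0 : Fin 4 → ℝ) (2 * R)
    · rw [Set.indicator_of_mem hx]
      have h2 : esq x ≤ (2 * R) ^ 2 := by
        rw [eb_zero_eq] at hx; exact hx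
      have h3 : (3:ℝ) / 4 ≤ mm (4 * R) x := by
        unfold H891.mm
        refine le_trans ?_ (H891.le_pp _)
        have : esq x / (4 * R) ^ 2 ≤ 1 / 4 := by
          rw [div_le_iff₀ (by positivity)]
          nlinarith
        linarith
      have h4 : (1:ℝ) / 2 ≤ ph (4 * R) x := by
        unfold H891.ph
        nlinarith
      nlinarith
    · rw [Set.indicator_of_notMem hx]
      positivity

/-! ### The end -/

/-- Form of (2.0) used here. -/
def P20 : Prop := ∃ C : ℝ, 0 ≤ C ∧ ∀ (v : (Fin 4 → ℝ) → ℝ), Sol v → ∀ a R H : ℝ, 1 ≤ R → 0 ≤ H →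
  |a| ≤ R → H370.Flat v 3 a (2 * R) H →
    JJ v 3 a R ≤ C * (1 + H) ^ 2 * R ^ 3 ∧ J0 v 3 a R ≤ C * (1 + H) * R ^ 3

/-- Form of OUT1 used here. -/
def PK (u : (Fin 4 → ℝ) → ℝ) (K : ℝ) : Prop :=
  ∀ R : ℝ, 0 < R → TT (fun _ => 1) u R ≤ TT (fun _ => 1) (GG (3 : Fin 4)) R + K / R ^ 2

lemma PK_of_OUT1 (h : OUT1 u) : PK u (KB 3) := fun R hR => bridge h 3 hR

lemma PK.rot (hu : Sol u) {K : ℝ} (h : PK u K) (L : LI 4) :
    PK (fun x => u (H787.rot L x)) K := by
  intro R hR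
  rw [TT_rot hu]
  exact h R hR

lemma log_sq_small (K : ℝ) {ε : ℝ} (hε : 0 < ε) : ∃ R0 : ℝ, 1 ≤ R0 ∧ ∀ R, R0 ≤ R →
    (1 + K * Real.log (8 * R)) ^ 2 ≤ ε * R := by
  have h := (Real.isLittleO_pow_log_id_atTop (n := 2))
  have h1 : ∀ᶠ x : ℝ in atTop, ‖Real.log x ^ 2‖ ≤ (ε / (8 * (2 * K ^ 2 + 1)) / 2) * ‖id x‖ :=
    h.def (by positivity)
  have h2 : Tendsto (fun R : ℝ => 8 * R) atTop atTop := tendsto_id.const_mul_atTop (by norm_num)
  obtain ⟨R0, hR0⟩ := eventually_atTop.mp (h2.eventually h1)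
  refine ⟨max R0 (max 1 (4 / ε)), (le_max_left _ _).trans (le_max_right _ _), fun R hR => ?_⟩
  have h3 := hR0 R ((le_max_left _ _).trans hR)
  have hR1 : 1 ≤ R := ((le_max_left _ _).trans (le_max_right _ _)).trans hR
  have hRe : 4 / ε ≤ R := ((le_max_right _ _).trans (le_max_right _ _)).trans hR
  simp only [Real.norm_eq_abs, id] at h3
  rw [abs_of_nonneg (sq_nonneg _), abs_of_nonneg (by linarith : (0:ℝ) ≤ 8 * R)] at h3
  have h4 : (1 + K * Real.log (8 * R)) ^ 2 ≤ 2 + 2 * K ^ 2 * Real.log (8 * R) ^ 2 := by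
    nlinarith [sq_nonneg (1 - K * Real.log (8 * R))]
  have h5 : 2 * K ^ 2 * Real.log (8 * R) ^ 2 ≤ ε / 2 * R := by
    have h6 : 2 * K ^ 2 * Real.log (8 * R) ^ 2
        ≤ 2 * K ^ 2 * (ε / (8 * (2 * K ^ 2 + 1)) / 2 * (8 * R)) :=
      mul_le_mul_of_nonneg_left h3 (by positivity)
    have h7 : 2 * K ^ 2 * (ε / (8 * (2 * K ^ 2 + 1)) / 2 * (8 * R))
        = (2 * K ^ 2 / (2 * K ^ 2 + 1)) * (ε / 2 * R) := by
      field_simp
    have h8 : 2 * K ^ 2 / (2 * K ^ 2 + 1) ≤ 1 := by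
      rw [div_le_one (by positivity)]; linarith
    have h9 : (2 * K ^ 2 / (2 * K ^ 2 + 1)) * (ε / 2 * R) ≤ 1 * (ε / 2 * R) :=
      mul_le_mul_of_nonneg_right h8 (by positivity)
    linarith
  have h6 : 2 ≤ ε / 2 * R := by
    rw [div_le_iff₀ hε] at hRe
    linarith
  linarith

/-- END: logarithmic heights give the tilt excess needed by `end28`. -/
theorem end_input (hu : Sol u) {K1 : ℝ} (hK1 : 0 ≤ K1) (hout : PK u K1) (h20 : P20)
    (hS : ∃ K R0 : ℝ, 0 < K ∧ 1 ≤ R0 ∧ ∀ R, R0 ≤ R → State u R (K * Real.log R)) :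
    ∀ ε : ℝ, 0 < ε → ∀ R0 : ℝ, ∃ R : ℝ, R0 ≤ R ∧ 0 < R ∧ ∃ e : Fin 4 → ℝ, ∑ i, e i ^ 2 = 1 ∧
      ∫ x in eb 0 (2 * R), TI u e x ≤ ε * R ^ 2 := by
  obtain ⟨C, hC0, hC⟩ := h20
  obtain ⟨K, R1, hK, hR1, hS⟩ := hS
  intro ε hε R0
  set C' : ℝ := 2 * K1 + 3072 + 16 * C with hC'
  have hC'0 : 0 < C' := by positivity
  obtain ⟨R2, hR2, hlog⟩ := log_sq_small K (ε := ε / (16 * C')) (by positivity)
  obtain ⟨R3, hR3, hlog3⟩ := log_le_mul K (c := 1 / 2) (by norm_num)
  set R : ℝ := max (max R0 R1) (max R2 R3) with hR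
  have g0 : R0 ≤ R := (le_max_left _ _).trans (le_max_left _ _)
  have g1 : R1 ≤ R := (le_max_right _ _).trans (le_max_left _ _)
  have g2 : R2 ≤ R := (le_max_left _ _).trans (le_max_right _ _)
  have g3 : R3 ≤ R := (le_max_right _ _).trans (le_max_right _ _)
  have hR1' : 1 ≤ R := hR1.trans g1
  have hR0' : 0 < R := by linarith
  refine ⟨R, g0, hR0', ?_⟩
  obtain ⟨L, a, ha, hF⟩ := hS (8 * R) (by linarith)
  set H : ℝ := K * Real.log (8 * R) with hH
  have hH0 : 0 ≤ H := by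
    have : 0 ≤ Real.log (8 * R) := Real.log_nonneg (by linarith)
    positivity
  have hHR : H ≤ 4 * R := by
    have := hlog3 (8 * R) (by linarith)
    linarith
  have haR : |a| ≤ 4 * R := ha.trans hHR
  refine ⟨rot L (Pi.single 3 1), ?_, ?_⟩
  · rw [rot_sq]
    simp [Pi.single_apply]
  have hv := Sol.rot hu L
  set v : (Fin 4 → ℝ) → ℝ := fun x => u (rot L x) with hvd
  have h1 := TI_le_TILT hu L hR0'
  have h4R : (0:ℝ) < 4 * R := by positivity
  have h2 := tilt_le (n := 4) hv 3 a h4R (PK.rot hu hout L (4 * R) h4R)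
  have h2R : 2 * (4 * R) = 8 * R := by ring
  obtain ⟨h3, h4⟩ := hC v hv a (4 * R) H (by linarith) hH0 haR (by rw [h2R]; exact hF)
  have ha2 : a ^ 2 ≤ H ^ 2 := by
    rw [← sq_abs a]; exact pow_le_pow_left₀ (abs_nonneg _) ha 2
  have h5 : TILT v 3 (4 * R) ≤ 1 / (4 * R) ^ 2 * (C' * (1 + H) ^ 2 * (4 * R) ^ 3) := by
    refine h2.trans ?_
    apply mul_le_mul_of_nonneg_left _ (by positivity)
    have e3 : (4 - 1 : ℕ) = 3 := rfl
    simp only [e3]
    have hh : H ^ 2 ≤ (1 + H) ^ 2 := by nlinarith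
    have hh1 : 1 ≤ (1 + H) ^ 2 := by nlinarith
    have hP : (0:ℝ) < (4 * R) ^ 3 := by positivity
    have t1 : (2 * K1 + 384 * 2 ^ 3 * a ^ 2) * (4 * R) ^ 3
        ≤ ((2 * K1 + 3072) * (1 + H) ^ 2) * (4 * R) ^ 3 := by
      apply mul_le_mul_of_nonneg_right _ hP.le
      nlinarith
    have t2 : 8 * JJ v 3 a (4 * R) ≤ 8 * (C * (1 + H) ^ 2 * (4 * R) ^ 3) := by linarith
    have t3 : 8 * |a| * J0 v 3 a (4 * R) ≤ 8 * (C * (1 + H) ^ 2 * (4 * R) ^ 3) := by
      have t4 : |a| * J0 v 3 a (4 * R) ≤ (1 + H) * (C * (1 + H) * (4 * R) ^ 3) := by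
        have t5 : |a| * J0 v 3 a (4 * R) ≤ |a| * (C * (1 + H) * (4 * R) ^ 3) :=
          mul_le_mul_of_nonneg_left h4 (abs_nonneg _)
        have t6 : |a| * (C * (1 + H) * (4 * R) ^ 3) ≤ (1 + H) * (C * (1 + H) * (4 * R) ^ 3) :=
          mul_le_mul_of_nonneg_right (by linarith) (by positivity)
        linarith
      nlinarith
    have t7 : C' * (1 + H) ^ 2 * (4 * R) ^ 3 = ((2 * K1 + 3072) * (1 + H) ^ 2) * (4 * R) ^ 3
        + 16 * (C * (1 + H) ^ 2 * (4 * R) ^ 3) := by rw [hC']; ring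
    rw [t7]
    linarith
  have h6 : 1 / (4 * R) ^ 2 * (C' * (1 + H) ^ 2 * (4 * R) ^ 3) = 4 * R * C' * (1 + H) ^ 2 := by
    field_simp
    try ring
  rw [h6] at h5
  have h7 := hlog R g2
  have h8 : 4 * R * C' * (1 + H) ^ 2 ≤ 4 * R * C' * (ε / (16 * C') * R) :=
    mul_le_mul_of_nonneg_left h7 (by positivity)
  have h9 : 4 * R * C' * (ε / (16 * C') * R) = ε / 4 * R ^ 2 := by
    field_simp
    ring
  rw [h9] at h8
  linarith

/-! ### The start -/

/-- Form of (2.2') used here. -/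
def P22 : Prop := ∃ C : ℝ, 0 ≤ C ∧ ∀ (v : (Fin 4 → ℝ) → ℝ), Sol v → ∀ R : ℝ, 1 ≤ R →
  PA v 3 0 R ≤ C * (R ^ 3 + JJ v 3 0 R + R ^ 2 * TILT v 3 R)

/-- Form of (2.3) used here. -/
def P23 : Prop := ∃ C : ℝ, 0 ≤ C ∧ ∀ (v : (Fin 4 → ℝ) → ℝ), Sol v → ∀ a R : ℝ, 1 ≤ R →
  ∀ z : Fin 4 → ℝ, esq z ≤ R ^ 2 → |v z| ≤ 3 / 4 →
    (z 3 - a) ^ 2 ≤ C * (1 + PA v 3 a (kap 4 * R) / R ^ 3)

/-- The limit half space function. -/
noncomputable def st (s : ℝ) : ℝ := if 0 < s then Psi 1 else 0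

lemma st_gp (s : ℝ) : |st s - Psi (gp s)| ≤ 12 / (1 + s ^ 2) := by
  have hb := H891.gp_abs s
  have he : Real.exp (-|s|) ≤ 3 / (1 + |s| ^ 2) := H891.exp_neg_le (abs_nonneg s)
  rw [sq_abs] at he
  have h4 : Real.exp (-(√2 * |s|)) ^ 2 ≤ Real.exp (-|s|) := by
    rw [← Real.exp_nat_mul]
    apply Real.exp_le_exp.mpr
    push_cast
    nlinarith [one_lt_sqrt2, abs_nonneg s]
  unfold st
  split_ifs with h
  · have h1 := H891.Psi_one_sub_le_sq hb
    have h2 := H891.Psi_le_Psi_one hb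
    rw [abs_of_nonneg (by linarith)]
    have h3 := H891.one_sub_gp_le s
    have h5 := H891.gp_lt_one s
    have e : |s| = s := abs_of_pos h
    rw [e] at h4 he
    have h6 : (1 - gp s) ^ 2 ≤ (2 * Real.exp (-(√2 * s))) ^ 2 :=
      pow_le_pow_left₀ (by linarith) h3 2
    rw [mul_pow] at h6
    have : (12:ℝ) / (1 + s ^ 2) = 4 * (3 / (1 + s ^ 2)) := by ring
    rw [this]
    linarith
  · have h1 := H891.Psi_le_sq hb
    have h2 := H891.Psi_nonneg hb
    rw [zero_sub, abs_neg, abs_of_nonneg h2]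
    have h3 := H891.one_add_gp_le s
    have h5 := H891.neg_one_lt_gp s
    have e : |s| = -s := abs_of_nonpos (not_lt.mp h)
    rw [e] at h4 he
    have h6 : (1 + gp s) ^ 2 ≤ (2 * Real.exp (√2 * s)) ^ 2 :=
      pow_le_pow_left₀ (by linarith) h3 2
    have h7 : -(√2 * -s) = √2 * s := by ring
    rw [h7] at h4
    rw [mul_pow] at h6
    have : (12:ℝ) / (1 + s ^ 2) = 4 * (3 / (1 + s ^ 2)) := by ring
    rw [this]
    linarith

lemma st_measurable : Measurable st := by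
  unfold st
  exact Measurable.ite measurableSet_Ioi measurable_const measurable_const

/-- Distance to the half space. -/
noncomputable def hd (v : (Fin 4 → ℝ) → ℝ) (x : Fin 4 → ℝ) : ℝ := |Psi (v x) - st (x 3)|

lemma hd_nonneg (v : (Fin 4 → ℝ) → ℝ) (x : Fin 4 → ℝ) : 0 ≤ hd v x := abs_nonneg _

lemma hd_measurable (hv : Continuous v) : Measurable (hd v) := by
  unfold hd
  exact continuous_abs.measurable.comp ((continuous_Psi.comp hv).measurable.sub
    (st_measurable.comp (measurable_pi_apply 3)))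

lemma hd_integrableOn (hv : Sol v) {A : Set (Fin 4 → ℝ)} (hA : IsCompact A) :
    IntegrableOn (hd v) A := by
  apply Measure.integrableOn_of_bounded (M := 2 * Psi 1) hA.measure_lt_top.ne
  · exact (hd_measurable hv.c2.continuous).aestronglyMeasurable
  · refine Eventually.of_forall fun x => ?_
    have h1 := H891.Psi_nonneg (hv.bd x)
    have h2 := H891.Psi_le_Psi_one (hv.bd x)
    have h3 : 0 ≤ st (x 3) := by
      unfold st; split_ifs
      · linarith
      · exact le_rfl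
    have h4 : st (x 3) ≤ Psi 1 := by
      unfold st; split_ifs
      · exact le_rfl
      · linarith
    unfold hd
    rw [Real.norm_eq_abs, abs_abs, abs_le]
    constructor <;> linarith

lemma isCompact_bl (R : ℝ) : IsCompact (bl R : Set (Fin 4 → ℝ)) := H919.isCompact_rho_le _

/-- The weighted L¹ distance in terms of the distance to the half space. -/
lemma JJ_le (hv : Sol v) {R : ℝ} (hR : 0 < R) :
    JJ v 3 0 R ≤ R * (∫ x in bl R, hd v x) + 384 * R ^ 4 := by
  unfold H370.JJ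
  have hm : MeasurableSet (bl R : Set (Fin 4 → ℝ)) := (isCompact_bl R).measurableSet
  have cdd : Continuous (fun x : Fin 4 → ℝ => 12 / (1 + x 3 ^ 2)) := by
    apply Continuous.div continuous_const (by fun_prop)
    intro x; positivity
  have i1 : Integrable (fun x : Fin 4 → ℝ => (bl R).indicator (hd v) x) :=
    (hd_integrableOn hv (isCompact_bl R)).integrable_indicator hm
  have i2 : Integrable (fun x : Fin 4 → ℝ => 12 / (1 + x 3 ^ 2) * mm R x) :=
    (cdd.mul (continuous_mm R)).integrable_of_hasCompactSupport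
      (mm_hasCompactSupport hR).mul_left
  have h1 : ∫ x, |x 3 - 0| * gap v 3 0 x * mm R x
      ≤ ∫ x, (R * (bl R).indicator (hd v) x + R * (12 / (1 + x 3 ^ 2) * mm R x)) := by
    apply integral_mono_of_nonneg
    · refine Eventually.of_forall fun x => ?_
      exact mul_nonneg (mul_nonneg (abs_nonneg _) (H370.gap_nonneg _ _ _ _)) (mm_nonneg _ _)
    · exact (i1.const_mul R).add (i2.const_mul R)
    · refine Eventually.of_forall fun x => ?_
      simp only [sub_zero]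
      have hmm0 := mm_nonneg R x
      have hmm1 := mm_le_one (r := R) x
      by_cases hx : esq x ≤ R ^ 2
      · have hxb : x ∈ (bl R : Set (Fin 4 → ℝ)) := hx
        rw [Set.indicator_of_mem hxb]
        have h3 : |x 3| ≤ R := H891.abs_coord_le hR.le hx 3
        have h4 : gap v 3 0 x ≤ hd v x + 12 / (1 + x 3 ^ 2) := by
          have h5 := st_gp (x 3)
          unfold H370.gap H370.Ga hd
          rw [sub_zero]
          have e : Psi (v x) - Psi (gp (x 3)) = (Psi (v x) - st (x 3)) + (st (x 3) - Psi (gp (x 3))) := by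
            ring
          rw [e]
          exact (abs_add_le _ _).trans (by linarith)
        have h6 : |x 3| * gap v 3 0 x ≤ R * (hd v x + 12 / (1 + x 3 ^ 2)) :=
          mul_le_mul h3 h4 (H370.gap_nonneg _ _ _ _) hR.le
        have h7 := hd_nonneg v x
        have h8 : 0 ≤ 12 / (1 + x 3 ^ 2) := by positivity
        calc |x 3| * gap v 3 0 x * mm R x
            ≤ R * (hd v x + 12 / (1 + x 3 ^ 2)) * mm R x := mul_le_mul_of_nonneg_right h6 hmm0
          _ = R * (hd v x * mm R x) + R * (12 / (1 + x 3 ^ 2) * mm R x) := by ring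
          _ ≤ _ := by
              have : hd v x * mm R x ≤ hd v x := mul_le_of_le_one_right h7 hmm1
              have := mul_le_mul_of_nonneg_left this hR.le
              linarith
      · have h9 : mm R x = 0 := H891.mm_eq_zero hR (not_le.mp hx).le
        have hxb : x ∉ (bl R : Set (Fin 4 → ℝ)) := hx
        rw [Set.indicator_of_notMem hxb, h9]
        simp
  refine h1.trans ?_
  rw [integral_add (i1.const_mul R) (i2.const_mul R), integral_const_mul, integral_const_mul,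
    integral_indicator hm]
  have h2 : ∫ x : Fin 4 → ℝ, 12 / (1 + x 3 ^ 2) * mm R x ≤ (4 * 12 + 0 * 0) * (2 * R) ^ (4 - 1) := by
    apply H891.slab (p := 3) (K := 12) (a := 0) (M := 0) (L := 0) (by norm_num) le_rfl le_rfl hR.le i2
    · intro x hx
      rw [mem_box] at hx
      push Not at hx
      obtain ⟨i, hi⟩ := hx
      rw [H891.mm_eq_zero_of_abs hR hi.le]; simp
    · intro x hx
      refine le_trans ?_ (H891.maj_ge_left le_rfl)
      rw [sub_zero]
      have hmm1 := mm_le_one (r := R) x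
      have : (0:ℝ) ≤ 12 / (1 + x 3 ^ 2) := by positivity
      exact mul_le_of_le_one_right this hmm1
  have e3 : (4 * 12 + 0 * 0) * (2 * R) ^ (4 - 1) = 384 * R ^ 3 := by
    have : (4 - 1 : ℕ) = 3 := rfl
    rw [this]; ring
  rw [e3] at h2
  have := mul_le_mul_of_nonneg_left h2 hR.le
  nlinarith

lemma conv_gt {a b H t : ℝ} (h0 : 0 ≤ t) (h1 : t ≤ 1) (ha : H < a) (hb : H < b) :
    H < (1 - t) * a + t * b := by
  rcases h0.eq_or_lt with h | h
  · subst h; simpa using ha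
  · have h2 : 0 < t * (b - H) := mul_pos h (by linarith)
    have h3 : 0 ≤ (1 - t) * (a - H) := mul_nonneg (by linarith) (by linarith)
    nlinarith

/-- Sign above the height. -/
lemma flat_of_interface (hv : Sol v) {ρ H δ : ℝ} (hρ : 0 < ρ) (hH0 : 0 ≤ H) (hH : H ≤ ρ / 4)
    (hI : ∀ z : Fin 4 → ℝ, esq z ≤ ρ ^ 2 → |v z| ≤ 3 / 4 → |z 3| ≤ H)
    (hL : ∫ x in bl ρ, hd v x ≤ δ * ρ ^ 4) (hδ : δ < 1 / 512) :
    H370.Flat v 3 0 ρ H := by
  have hc := hv.c2.continuous
  have seg : ∀ (x y : Fin 4 → ℝ), Continuous (fun t : ℝ => v ((1 - t) • x + t • y)) := by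
    intro x y
    exact hc.comp (by fun_prop)
  have hPc : (1:ℝ) / 2 ≤ Psi 1 - Psi (-(3/4)) := by
    rw [H891.Psi_one_sub]
    have h1 := H891.sqrt2_lt
    have h2 := sqrt2_pos
    rw [le_div_iff₀ (by positivity)]
    nlinarith
  have hPc' : (1:ℝ) / 2 ≤ Psi (3/4) := by
    rw [H891.Psi_eq]
    have h1 := H891.sqrt2_lt
    have h2 := sqrt2_pos
    rw [le_div_iff₀ (by positivity)]
    nlinarith
  have hPmono : ∀ s t : ℝ, -1 ≤ s → s ≤ t → t ≤ 1 → Psi s ≤ Psi t := by
    intro s t h1 h2 h3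
    have hd1 : ∀ r, HasDerivAt Psi ((1 - r ^ 2) / √2) r := H891.hasDerivAt_Psi
    have hm : MonotoneOn Psi (Set.Icc (-1) 1) := by
      apply monotoneOn_of_deriv_nonneg (convex_Icc _ _) continuous_Psi.continuousOn
      · exact fun r _ => (hd1 r).differentiableAt.differentiableWithinAt
      · intro r hr
        rw [interior_Icc] at hr
        rw [(hd1 r).deriv]
        apply div_nonneg _ sqrt2_pos.le
        nlinarith [hr.1, hr.2]
    exact hm ⟨h1, by linarith⟩ ⟨by linarith, h3⟩ h2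
  -- volume estimate on a small box around `c e₃`
  have hbox : ∀ c : ℝ, |c| = ρ / 2 →
      (∀ y : Fin 4 → ℝ, esq y ≤ ρ ^ 2 → (|y 3 - c| ≤ ρ / 8) → 1 / 2 ≤ hd v y) → False := by
    intro c hc' hall
    set z0 : Fin 4 → ℝ := Pi.single 3 c with hz0
    have hsub : ∀ x ∈ box 4 (ρ / 8), esq (x + z0) ≤ ρ ^ 2 ∧ |(x + z0) 3 - c| ≤ ρ / 8 := by
      intro x hx
      rw [mem_box] at hx
      constructor
      · unfold esq
        rw [Fin.sum_univ_four]
        have h0 := abs_le.mp (hx 0)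
        have h1 := abs_le.mp (hx 1)
        have h2 := abs_le.mp (hx 2)
        have h3 := abs_le.mp (hx 3)
        have e0 : (x + z0) 0 = x 0 := by simp [hz0]
        have e1 : (x + z0) 1 = x 1 := by simp [hz0]
        have e2 : (x + z0) 2 = x 2 := by simp [hz0]
        have e3 : (x + z0) 3 = x 3 + c := by simp [hz0]
        rw [e0, e1, e2, e3]
        have s0 : x 0 ^ 2 ≤ (ρ / 8) ^ 2 := sq_le_sq' h0.1 h0.2
        have s1 : x 1 ^ 2 ≤ (ρ / 8) ^ 2 := sq_le_sq' h1.1 h1.2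
        have s2 : x 2 ^ 2 ≤ (ρ / 8) ^ 2 := sq_le_sq' h2.1 h2.2
        have hc2 := abs_le.mp hc'.le
        have s3 : (x 3 + c) ^ 2 ≤ (5 * ρ / 8) ^ 2 := sq_le_sq' (by linarith) (by linarith)
        nlinarith
      · have e3 : (x + z0) 3 = x 3 + c := by simp [hz0]
        rw [e3, add_sub_cancel_right]
        exact hx 3
    have hint : ∫ x in box 4 (ρ / 8), (1:ℝ) / 2 ≤ ∫ x in bl ρ, hd v x := by
      have hmb : MeasurableSet (bl ρ : Set (Fin 4 → ℝ)) := (isCompact_bl ρ).measurableSet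
      have hmx : MeasurableSet (box 4 (ρ / 8)) := (isCompact_box _).measurableSet
      have e1 : ∫ x in bl ρ, hd v x = ∫ x, (bl ρ).indicator (hd v) (x + z0) := by
        rw [← integral_indicator hmb]
        exact (integral_add_right_eq_self (μ := volume) (fun x => (bl ρ).indicator (hd v) x) z0).symm
      have iR : Integrable (fun x => (bl ρ).indicator (hd v) (x + z0)) :=
        ((hd_integrableOn hv (isCompact_bl ρ)).integrable_indicator hmb).comp_add_right z0
      rw [e1, ← integral_indicator hmx]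
      apply integral_mono_of_nonneg
      · exact Eventually.of_forall fun x => Set.indicator_nonneg (fun _ _ => by norm_num) x
      · exact iR
      · refine Eventually.of_forall fun x => ?_
        simp only []
        by_cases hx : x ∈ box 4 (ρ / 8)
        · obtain ⟨h1, h2⟩ := hsub x hx
          have hmem : x + z0 ∈ (bl ρ : Set (Fin 4 → ℝ)) := h1
          rw [Set.indicator_of_mem hx, Set.indicator_of_mem hmem]
          exact hall _ h1 h2
        · rw [Set.indicator_of_notMem hx]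
          exact Set.indicator_nonneg (fun y _ => hd_nonneg v y) _
    rw [setIntegral_const, smul_eq_mul] at hint
    have hvol : (volume : Measure (Fin 4 → ℝ)).real (box 4 (ρ / 8)) = (2 * (ρ / 8)) ^ 4 :=
      volume_box (by positivity)
    rw [hvol] at hint
    have h5 : (2 * (ρ / 8)) ^ 4 * (1 / 2) = ρ ^ 4 / 512 := by ring
    rw [h5] at hint
    have h6 : 0 < ρ ^ 4 := by positivity
    have h7 := hint.trans hL
    nlinarith
  intro x hx
  rw [sub_zero]
  constructor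
  · intro hx3
    by_contra hcon
    push Not at hcon
    have hxn : v x < -(3/4) := by
      by_contra h1
      push Not at h1
      have h2 := hI x hx (abs_le.mpr ⟨by linarith, hcon.le⟩)
      have := (abs_le.mp h2).2
      linarith
    apply hbox (ρ / 2) (abs_of_pos (by positivity))
    intro y hy hy3
    have hy3' := (abs_le.mp hy3).1
    have hyH : H < y 3 := by linarith
    have hyv : v y ≤ -(3/4) := by
      by_contra h1
      push Not at h1
      obtain ⟨t, ht, hut⟩ := intermediate_value_Icc (zero_le_one) (seg x y).continuousOn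
        (show (-(3 / 4) : ℝ) ∈ Set.Icc (v ((1 - (0:ℝ)) • x + (0:ℝ) • y)) (v ((1 - (1:ℝ)) • x + (1:ℝ) • y)) by
          simp only [sub_zero, one_smul, zero_smul, add_zero, sub_self, zero_add]
          exact ⟨hxn.le, h1.le⟩)
      simp only at hut
      have h2 := hI _ (H891.esq_conv ht.1 ht.2 hx hy) (by rw [hut]; norm_num [abs_of_pos])
      have h3 : ((1 - t) • x + t • y) 3 = (1 - t) * x 3 + t * y 3 := by simp
      rw [h3] at h2
      have h4 := (abs_le.mp h2).2
      exact absurd (conv_gt ht.1 ht.2 hx3 hyH) (not_lt.mpr h4)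
    have hyb := abs_le.mp (hv.bd y)
    have h8 := hPmono (v y) (-(3/4)) hyb.1 hyv (by norm_num)
    unfold hd st
    rw [if_pos (by linarith)]
    rw [abs_sub_comm]
    refine le_trans ?_ (le_abs_self _)
    linarith
  · intro hx3
    by_contra hcon
    push Not at hcon
    have hxp : 3/4 < v x := by
      by_contra h1
      push Not at h1
      have h2 := hI x hx (abs_le.mpr ⟨by linarith, h1⟩)
      have := (abs_le.mp h2).1
      linarith
    apply hbox (-(ρ / 2)) (by rw [abs_neg, abs_of_pos (by positivity)])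
    intro y hy hy3
    have hy3' := (abs_le.mp hy3).2
    have hyH : y 3 < -H := by linarith
    have hyv : 3/4 ≤ v y := by
      by_contra h1
      push Not at h1
      obtain ⟨t, ht, hut⟩ := intermediate_value_Icc' (zero_le_one) (seg x y).continuousOn
        (show ((3 / 4) : ℝ) ∈ Set.Icc (v ((1 - (1:ℝ)) • x + (1:ℝ) • y)) (v ((1 - (0:ℝ)) • x + (0:ℝ) • y)) by
          simp only [sub_zero, one_smul, zero_smul, add_zero, sub_self, zero_add]
          exact ⟨h1.le, hxp.le⟩)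
      simp only at hut
      have h2 := hI _ (H891.esq_conv ht.1 ht.2 hx hy) (by rw [hut]; norm_num [abs_of_pos])
      have h3 : ((1 - t) • x + t • y) 3 = (1 - t) * x 3 + t * y 3 := by simp
      rw [h3] at h2
      have h4 := (abs_le.mp h2).1
      have h5 := conv_gt (H := H) (a := -x 3) (b := -y 3) ht.1 ht.2 (by linarith) (by linarith)
      linarith
    have hyb := abs_le.mp (hv.bd y)
    have h8 := hPmono (3/4) (v y) (by norm_num) hyv hyb.2
    unfold hd st
    rw [if_neg (by linarith)]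
    rw [sub_zero]
    refine le_trans ?_ (le_abs_self _)
    linarith

lemma kap4 : kap 4 = 20 := by unfold H891.kap; norm_num

lemma dot_single (x : Fin 4 → ℝ) : ∑ i, (Pi.single 3 1 : Fin 4 → ℝ) i * x i = x 3 := by
  simp [Pi.single_apply]

lemma start_arith {C2 C3 K1 δ ε R X : ℝ} (hC20 : 0 ≤ C2) (hC30 : 0 ≤ C3) (hK1 : 0 ≤ K1)
    (hε1 : C3 * C2 * 20 ^ 3 * (9 * ε) ≤ δ ^ 2 / (2 * 20 ^ 2)) (hR1 : 1 ≤ R)
    (hRM : C3 + C3 * C2 * 20 ^ 3 * (3456 + 1 + 2 * K1) ≤ δ ^ 2 / (2 * 20 ^ 2) * R)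
    (hP' : X ≤ C2 * (9 * ε * R ^ 5 + 3456 * R ^ 4 + (1 + 2 * K1) * R ^ 3)) :
    C3 * (1 + X / (R / 20) ^ 3) ≤ (δ * (R / 20)) ^ 2 := by
  have hR0 : 0 < R := by linarith
  set B : ℝ := C3 * C2 * 20 ^ 3 with hB
  have hB0 : 0 ≤ B := by positivity
  have h3 : X / (R / 20) ^ 3 ≤ C2 * 20 ^ 3 * (9 * ε * R ^ 2 + 3456 * R + (1 + 2 * K1)) := by
    rw [div_le_iff₀ (by positivity)]
    refine hP'.trans (le_of_eq ?_)
    field_simp
  have h4 : C3 * (1 + X / (R / 20) ^ 3)
      ≤ C3 * (1 + C2 * 20 ^ 3 * (9 * ε * R ^ 2 + 3456 * R + (1 + 2 * K1))) :=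
    mul_le_mul_of_nonneg_left (by linarith) hC30
  have h5 : C3 * (1 + C2 * 20 ^ 3 * (9 * ε * R ^ 2 + 3456 * R + (1 + 2 * K1)))
      = B * (9 * ε) * R ^ 2 + (C3 + B * (3456 * R + (1 + 2 * K1))) := by
    rw [hB]; ring
  have h6 : C3 + B * (3456 * R + (1 + 2 * K1)) ≤ (C3 + B * (3456 + 1 + 2 * K1)) * R := by
    have h7 : C3 ≤ C3 * R := le_mul_of_one_le_right hC30 hR1
    have h8 : B * (3456 * R + (1 + 2 * K1)) ≤ B * ((3456 + 1 + 2 * K1) * R) := by
      apply mul_le_mul_of_nonneg_left _ hB0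
      have : (1 + 2 * K1) ≤ (1 + 2 * K1) * R := le_mul_of_one_le_right (by linarith) hR1
      linarith
    have e : (C3 + B * (3456 + 1 + 2 * K1)) * R = C3 * R + B * ((3456 + 1 + 2 * K1) * R) := by ring
    rw [e]
    linarith
  have h9 : (C3 + B * (3456 + 1 + 2 * K1)) * R ≤ δ ^ 2 / (2 * 20 ^ 2) * R ^ 2 := by
    calc (C3 + B * (3456 + 1 + 2 * K1)) * R ≤ (δ ^ 2 / (2 * 20 ^ 2) * R) * R :=
          mul_le_mul_of_nonneg_right hRM hR0.le
      _ = _ := by ring
  have h11 : B * (9 * ε) * R ^ 2 ≤ δ ^ 2 / (2 * 20 ^ 2) * R ^ 2 :=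
    mul_le_mul_of_nonneg_right hε1 (sq_nonneg R)
  have h12 : (δ * (R / 20)) ^ 2
      = δ ^ 2 / (2 * 20 ^ 2) * R ^ 2 + δ ^ 2 / (2 * 20 ^ 2) * R ^ 2 := by ring
  rw [h12]
  linarith

/-- Bound of the second moment at a good scale. -/
lemma start_PA {C2 K1 ε R : ℝ} (hC20 : 0 ≤ C2)
    (hC2 : ∀ (v : (Fin 4 → ℝ) → ℝ), Sol v → ∀ R : ℝ, 1 ≤ R →
      PA v 3 0 R ≤ C2 * (R ^ 3 + JJ v 3 0 R + R ^ 2 * TILT v 3 R))
    (hv : Sol v) (hout : PK v K1) (hR1 : 1 ≤ R) (hL' : ∫ x in bl R, hd v x ≤ ε * R ^ 4) :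
    PA v 3 0 R ≤ C2 * (9 * ε * R ^ 5 + 3456 * R ^ 4 + (1 + 2 * K1) * R ^ 3) := by
  have hR0 : 0 < R := by linarith
  have hJ := JJ_le hv hR0
  have hJ' : JJ v 3 0 R ≤ ε * R ^ 5 + 384 * R ^ 4 := by
    have h1 := mul_le_mul_of_nonneg_left hL' hR0.le
    have h2 : R * (ε * R ^ 4) = ε * R ^ 5 := by ring
    rw [h2] at h1
    linarith
  have hT := tilt_le (n := 4) hv 3 0 hR0 (hout R hR0)
  have hT' : R ^ 2 * TILT v 3 R ≤ 2 * K1 * R ^ 3 + 8 * JJ v 3 0 R := by
    have e3 : (4 - 1 : ℕ) = 3 := rfl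
    rw [e3] at hT
    have h1 := mul_le_mul_of_nonneg_left hT (sq_nonneg R)
    have h2 : R ^ 2 * (1 / R ^ 2 * ((2 * K1 + 384 * 2 ^ 3 * 0 ^ 2) * R ^ 3 + 8 * JJ v 3 0 R
        + 8 * |(0:ℝ)| * J0 v 3 0 R)) = 2 * K1 * R ^ 3 + 8 * JJ v 3 0 R := by
      rw [abs_zero]
      field_simp
      try ring
    rw [h2] at h1
    exact h1
  have hP := hC2 v hv R hR1
  refine hP.trans (mul_le_mul_of_nonneg_left ?_ hC20)
  linarith

/-- Choice of the parameters. -/
lemma start_eps {B δ : ℝ} (hB0 : 0 ≤ B) (hδ0 : 0 < δ) : ∃ ε : ℝ, 0 < ε ∧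
    B * (9 * ε) ≤ δ ^ 2 / (2 * 20 ^ 2) ∧ ε * 20 ^ 4 ≤ 1 / 1024 := by
  refine ⟨min (δ ^ 2 / (2 * 20 ^ 2) / (9 * (B + 1))) (1 / (1024 * 20 ^ 4)),
    lt_min (by positivity) (by positivity), ?_, ?_⟩
  · have h1 : min (δ ^ 2 / (2 * 20 ^ 2) / (9 * (B + 1))) (1 / (1024 * 20 ^ 4))
        ≤ δ ^ 2 / (2 * 20 ^ 2) / (9 * (B + 1)) := min_le_left _ _
    have h0 : 0 ≤ min (δ ^ 2 / (2 * 20 ^ 2) / (9 * (B + 1))) (1 / (1024 * 20 ^ 4)) :=
      le_min (by positivity) (by positivity)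
    rw [le_div_iff₀ (by positivity)] at h1
    nlinarith
  · have h1 : min (δ ^ 2 / (2 * 20 ^ 2) / (9 * (B + 1))) (1 / (1024 * 20 ^ 4))
        ≤ 1 / (1024 * 20 ^ 4) := min_le_right _ _
    calc _ ≤ 1 / (1024 * 20 ^ 4) * 20 ^ 4 := mul_le_mul_of_nonneg_right h1 (by positivity)
      _ = 1 / 1024 := by norm_num

/-- The good scale in rotated coordinates. -/
lemma start_rot (hu : Sol u) {ε R : ℝ} {e : Fin 4 → ℝ} (he : ∑ i, e i ^ 2 = 1)
    (hL : ∫ x in bl R, |Psi (u x) - if 0 < ∑ i, e i * x i then Psi 1 else 0| ≤ ε * R ^ 4) :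
    ∃ L : LI 4, ∫ x in bl R, hd (fun y => u (rot L y)) x ≤ ε * R ^ 4 := by
  obtain ⟨L, hLe⟩ := exists_rot (3 : Fin 4) he
  refine ⟨L, ?_⟩
  have e1 : ∫ x in bl R, |Psi (u x) - if 0 < ∑ i, e i * x i then Psi 1 else 0|
      = ∫ x in bl R, hd (fun y => u (rot L y)) x := by
    unfold bl
    rw [← setIntegral_rho_rot L
      (fun x => |Psi (u x) - if 0 < ∑ i, e i * x i then Psi 1 else 0|)]
    refine integral_congr_ae (Eventually.of_forall fun x => ?_)
    simp only []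
    have e2 : ∑ i, e i * rot L x i = x 3 := by
      rw [← hLe]; exact rot_single_dot L 3 x
    rw [e2]
    rfl
  rw [← e1]
  exact hL

/-- START: the blow-down gives heights `δ ρ` at arbitrarily large scales. -/
theorem start (hu : Sol u) {K1 : ℝ} (hK1 : 0 ≤ K1) (hout : PK u K1) (h22 : P22) (h23 : P23)
    (hO2 : OUT2 u) :
    ∀ δ : ℝ, 0 < δ → ∀ R0 : ℝ, ∃ ρ : ℝ, R0 ≤ ρ ∧ State u ρ (δ * ρ) := by
  obtain ⟨C2, hC20, hC2⟩ := h22
  obtain ⟨C3, hC30, hC3⟩ := h23
  intro δ' hδ' R0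
  set δ : ℝ := min δ' (1 / 4) with hδd
  have hδ0 : 0 < δ := lt_min hδ' (by norm_num)
  have hδ4 : δ ≤ 1 / 4 := min_le_right _ _
  obtain ⟨ε, hε0, hε1, hε2⟩ := start_eps (B := C3 * C2 * 20 ^ 3) (δ := δ) (by positivity) hδ0
  have hδ2 : 0 < δ ^ 2 / (2 * 20 ^ 2) := by positivity
  have hev := hO2 ε hε0
  obtain ⟨R, ⟨e, he, hL⟩, hRge⟩ := (hev.and (eventually_ge_atTop
    (max (max 20 (20 * R0))
      ((C3 + C3 * C2 * 20 ^ 3 * (3456 + 1 + 2 * K1)) / (δ ^ 2 / (2 * 20 ^ 2)))))).exists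
  have hR20 : 20 ≤ R := ((le_max_left _ _).trans (le_max_left _ _)).trans hRge
  have hRR0 : 20 * R0 ≤ R := ((le_max_right _ _).trans (le_max_left _ _)).trans hRge
  have hRM : C3 + C3 * C2 * 20 ^ 3 * (3456 + 1 + 2 * K1) ≤ δ ^ 2 / (2 * 20 ^ 2) * R := by
    have h1 := (le_max_right _ _).trans hRge
    rw [div_le_iff₀ hδ2] at h1
    linarith
  have hR0 : 0 < R := by linarith
  have hρR : 20 * (R / 20) = R := by ring
  have hρ1 : 1 ≤ R / 20 := by linarith
  have hρ0 : 0 < R / 20 := by linarith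
  refine ⟨R / 20, by linarith, ?_⟩
  obtain ⟨L, hL'⟩ := start_rot hu he hL
  have hv := Sol.rot hu L
  have hP' := start_PA hC20 hC2 hv (PK.rot hu hout L) (by linarith) hL'
  -- the interface
  have hI : ∀ z : Fin 4 → ℝ, esq z ≤ (R / 20) ^ 2 → |(fun y => u (rot L y)) z| ≤ 3 / 4 →
      |z 3| ≤ δ * (R / 20) := by
    intro z hz hvz
    have h1 := hC3 _ hv 0 (R / 20) hρ1 z hz hvz
    rw [kap4, hρR, sub_zero] at h1
    exact abs_le_of_sq_le_sq
      (h1.trans (start_arith hC20 hC30 hK1 hε1 (by linarith) hRM hP')) (by positivity)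
  -- the integral at scale ρ
  have hLρ : ∫ x in bl (R / 20), hd (fun y => u (rot L y)) x ≤ (1 / 1024) * (R / 20) ^ 4 := by
    have h1 : ∫ x in bl (R / 20), hd (fun y => u (rot L y)) x
        ≤ ∫ x in bl R, hd (fun y => u (rot L y)) x := by
      apply setIntegral_mono_set (hd_integrableOn hv (isCompact_bl R))
      · exact Eventually.of_forall fun x => hd_nonneg _ x
      · apply Eventually.of_forall
        intro x hx
        have hx' : rho Finset.univ x ≤ (R / 20) ^ 2 := hx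
        have : (R / 20) ^ 2 ≤ R ^ 2 := by
          apply pow_le_pow_left₀ hρ0.le; linarith
        exact hx'.trans this
    refine (h1.trans hL').trans ?_
    have h2 : ε * R ^ 4 = (ε * 20 ^ 4) * (R / 20) ^ 4 := by ring
    rw [h2]
    exact mul_le_mul_of_nonneg_right hε2 (by positivity)
  have hF := flat_of_interface hv hρ0 (H := δ * (R / 20)) (by positivity)
    (by nlinarith) hI hLρ (by norm_num)
  refine ⟨L, 0, by rw [abs_zero]; positivity, ?_⟩
  intro x hx
  have hδδ : δ * (R / 20) ≤ δ' * (R / 20) := mul_le_mul_of_nonneg_right (min_le_left _ _) hρ0.le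
  exact ⟨fun h1 => (hF x hx).1 (by linarith), fun h1 => (hF x hx).2 (by linarith)⟩

/-- The concrete improvement step, as an interface. -/
def STEP (u : (Fin 4 → ℝ) → ℝ) : Prop :=
  ∃ θ C1 c1 R1 : ℝ, 0 < θ ∧ θ < 1 ∧ 0 < c1 ∧ ∀ R H, R1 ≤ R → C1 * Real.log R ≤ H → H ≤ c1 * R →
    State u R H → State u (θ * R) (θ * H)

/-- Part 2 of M4' from the improvement step and (2.0), (2.2'), (2.3). -/
theorem part_two (h20 : P20) (h22 : P22) (h23 : P23)
    (hstep : ∀ u : (Fin 4 → ℝ) → ℝ, Sol u → (∀ x, |u x| < 1) → |u 0| ≤ 3 / 4 → ST u →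
      OUT1 u → STEP u) : StF := by
  intro u hu hlt h0 hE hST hO1 hO2
  have hpsi : ∀ x, 0 < psi u x := by
    intro x
    have := abs_lt.mp (hlt x)
    unfold psi
    nlinarith
  have hout := PK_of_OUT1 hO1
  have hst := start hu KB_nonneg hout h22 h23 hO2
  obtain ⟨θ, C1, c1, R1, hθ0, hθ1, hc1, hs⟩ := hstep u hu hlt h0 hST hO1
  have hit := iter_core (S := State u) (fun R H H' h hH => h.mono_H hH)
    (fun R R' H h h0 hR => h.mono_R h0 hR) hθ0 hθ1 hc1 hs
    (fun ε hε R0 => hst ε hε R0)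
  obtain ⟨e, g, he, hg⟩ := end28 (by norm_num) hu hpsi hST.2
    (end_input hu KB_nonneg hout h20 hit)
  exact ⟨e, g, he, hg⟩

end Vale.Agent.P134.H787
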