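import Vale.Agent.P134.H891.Excess
import Mathlib.MeasureTheory.Integral.IntegralEqImproper
import Mathlib.Analysis.SpecialFunctions.ImproperIntegrals

set_option linter.all false

/-! The energy of the one dimensional profile in a ball: lower bound
`c₀ w - K/R² ≤ Θ(GG p)(R)`, so that the sharp upper bound OUT1 becomes
`Θ(u)(R) ≤ Θ(GG p)(R) + K/R²`. -/

open MeasureTheory Filter Topology

namespace Vale.Agent.P134.H787

open Vale.Agent.P134 Vale.Agent.P134.H891

variable {m : ℕ}

/-- Splitting off one coordinate. -/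
lemma integral_insertNth (p : Fin (m + 1)) {F : (Fin (m + 1) → ℝ) → ℝ} (hF : Integrable F) :
    ∫ x, F x = ∫ s : ℝ, ∫ y : Fin m → ℝ, F (p.insertNth s y) := by
  have h := volume_preserving_piFinSuccAbove (fun _ : Fin (m + 1) => ℝ) p
  have h2 := h.symm
  have e1 : ∫ x, F x = ∫ z : ℝ × (Fin m → ℝ),
      F ((MeasurableEquiv.piFinSuccAbove (fun _ : Fin (m + 1) => ℝ) p).symm z) :=
    (h2.integral_comp' F).symm
  have i2 : Integrable (fun z : ℝ × (Fin m → ℝ) =>
      F ((MeasurableEquiv.piFinSuccAbove (fun _ : Fin (m + 1) => ℝ) p).symm z)) :=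
    h2.integrable_comp_of_integrable hF
  rw [e1]
  have e2 : (volume : Measure (ℝ × (Fin m → ℝ))) = (volume : Measure ℝ).prod volume := rfl
  rw [e2] at i2 ⊢
  rw [integral_prod _ i2]
  rfl

lemma esq_insertNth (p : Fin (m + 1)) (s : ℝ) (y : Fin m → ℝ) :
    esq (p.insertNth s y : Fin (m + 1) → ℝ) = s ^ 2 + esq y := by
  unfold esq
  rw [Fin.sum_univ_succAbove _ p]
  simp

lemma pp_sq_sub (A b : ℝ) (hb : 0 ≤ b) : pp A ^ 2 - 2 * b * pp A ≤ pp (A - b) ^ 2 := by
  rcases le_total A 0 with h | h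
  · rw [pp_of_nonpos h]
    have := sq_nonneg (pp (A - b))
    linarith
  · rw [pp_of_nonneg h]
    rcases le_total (A - b) 0 with h2 | h2
    · rw [pp_of_nonpos h2]
      nlinarith
    · rw [pp_of_nonneg h2]
      nlinarith

lemma ph_insertNth_ge (p : Fin (m + 1)) {R : ℝ} (hR : 0 < R) (s : ℝ) (y : Fin m → ℝ) :
    ph R y - 2 * (s ^ 2 / R ^ 2) * mm R y ≤ ph R (p.insertNth s y : Fin (m + 1) → ℝ) := by
  unfold ph mm
  rw [esq_insertNth]
  have h := pp_sq_sub (1 - esq y / R ^ 2) (s ^ 2 / R ^ 2) (by positivity)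
  have e : 1 - esq y / R ^ 2 - s ^ 2 / R ^ 2 = 1 - (s ^ 2 + esq y) / R ^ 2 := by ring
  rw [e] at h
  exact h

/-- The energy density of the profile. -/
noncomputable def wd (s : ℝ) : ℝ := (1 - gp s ^ 2) ^ 2 / 2

lemma wd_nonneg (s : ℝ) : 0 ≤ wd s := by unfold wd; positivity

lemma wd_continuous : Continuous wd := by
  unfold wd
  exact ((continuous_const.sub (continuous_gp.pow 2)).pow 2).div_const 2

lemma wd_le (s : ℝ) : wd s ≤ 24 * (1 + s ^ 2)⁻¹ := by
  have h := psi_GG_sq_le (n := 1) 0 (fun _ => s)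
  unfold psi GG at h
  unfold wd
  rw [div_eq_mul_inv] at h
  linarith

lemma sq_mul_wd_le (s : ℝ) : s ^ 2 * wd s ≤ 208 * (1 + s ^ 2)⁻¹ := by
  have h := sq_mul_psi_GG_sq_le (n := 1) 0 (fun _ => s)
  unfold psi GG at h
  unfold wd
  rw [div_eq_mul_inv] at h
  linarith

lemma wd_integrable : Integrable wd := by
  apply (integrable_inv_one_add_sq.const_mul 24).mono' wd_continuous.aestronglyMeasurable
  refine Eventually.of_forall fun s => ?_
  rw [Real.norm_eq_abs, abs_of_nonneg (wd_nonneg s)]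
  exact wd_le s

lemma sq_mul_wd_integrable : Integrable (fun s => s ^ 2 * wd s) := by
  have hc : Continuous (fun s => s ^ 2 * wd s) := (continuous_pow 2).mul wd_continuous
  refine (integrable_inv_one_add_sq.const_mul 208).mono' hc.aestronglyMeasurable ?_
  refine Eventually.of_forall fun s => ?_
  rw [Real.norm_eq_abs, abs_of_nonneg (mul_nonneg (sq_nonneg s) (wd_nonneg s))]
  exact sq_mul_wd_le s

lemma gp_tendsto_top : Tendsto gp atTop (𝓝 1) := by
  have h1 : Tendsto (fun s : ℝ => 2 * Real.exp (-(√2 * s))) atTop (𝓝 (2 * 0)) := by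
    apply Tendsto.const_mul
    apply Real.tendsto_exp_neg_atTop_nhds_zero.comp
    exact tendsto_id.const_mul_atTop sqrt2_pos
  rw [mul_zero] at h1
  have h2 : Tendsto (fun s => 1 - gp s) atTop (𝓝 0) :=
    squeeze_zero (fun s => by linarith [gp_lt_one s]) one_sub_gp_le h1
  have h3 := h2.const_sub 1
  simpa using h3

lemma gp_tendsto_bot : Tendsto gp atBot (𝓝 (-1)) := by
  have h1 : Tendsto (fun s : ℝ => 2 * Real.exp (√2 * s)) atBot (𝓝 (2 * 0)) := by
    apply Tendsto.const_mul
    apply Real.tendsto_exp_atBot.comp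
    exact tendsto_id.const_mul_atBot sqrt2_pos
  rw [mul_zero] at h1
  have h2 : Tendsto (fun s => 1 + gp s) atBot (𝓝 0) :=
    squeeze_zero (fun s => by linarith [neg_one_lt_gp s]) one_add_gp_le h1
  have h3 := h2.const_add (-1)
  simpa using h3

/-- Total energy of the profile. -/
lemma integral_wd : ∫ s, wd s = Psi 1 := by
  have hd : ∀ s, HasDerivAt (fun s => Psi (gp s)) (wd s) s := by
    intro s
    have h := (hasDerivAt_Psi (gp s)).comp s (hasDerivAt_gp s)
    refine h.congr_deriv ?_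
    unfold wd
    have h2 := sqrt2_sq
    rw [div_mul_div_comm, ← sq, ← sq, h2]
  have h := integral_of_hasDerivAt_of_tendsto hd wd_integrable
    ((continuous_Psi.tendsto (-1)).comp gp_tendsto_bot)
    ((continuous_Psi.tendsto 1).comp gp_tendsto_top)
  rw [h, Psi_neg_one, sub_zero]

lemma mm_scale {R : ℝ} (hR : 0 < R) (y : Fin m → ℝ) : mm R y = mm 1 (R⁻¹ • y) := by
  unfold mm
  congr 2
  unfold esq
  rw [Finset.sum_div, one_pow, div_one]
  refine Finset.sum_congr rfl fun i _ => ?_
  simp only [Pi.smul_apply, smul_eq_mul]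
  field_simp

lemma integral_scale {R : ℝ} (hR : 0 < R) (f : (Fin m → ℝ) → ℝ) :
    ∫ y, f (R⁻¹ • y) = R ^ m * ∫ y, f y := by
  rw [Measure.integral_comp_smul (μ := (volume : Measure (Fin m → ℝ))) f R⁻¹]
  simp only [Module.finrank_fin_fun, smul_eq_mul, inv_pow, inv_inv]
  rw [abs_of_pos (by positivity)]

lemma integral_mm {R : ℝ} (hR : 0 < R) :
    ∫ y : Fin m → ℝ, mm R y = R ^ m * ∫ y : Fin m → ℝ, mm 1 y := by
  rw [← integral_scale hR]
  exact integral_congr_ae (Eventually.of_forall fun y => mm_scale hR y)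

lemma integral_ph {R : ℝ} (hR : 0 < R) :
    ∫ y : Fin m → ℝ, ph R y = R ^ m * ∫ y : Fin m → ℝ, ph 1 y := by
  rw [← integral_scale hR]
  refine integral_congr_ae (Eventually.of_forall fun y => ?_)
  simp only [ph]
  rw [mm_scale hR]

/-- The constant of the bridge. -/
noncomputable def KB (m : ℕ) : ℝ := 2 * (∫ s, s ^ 2 * wd s) * ∫ y : Fin m → ℝ, mm 1 y

lemma KB_nonneg : 0 ≤ KB m := by
  unfold KB
  have h1 : 0 ≤ ∫ s, s ^ 2 * wd s := integral_nonneg fun s => mul_nonneg (sq_nonneg s) (wd_nonneg s)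
  have h2 : 0 ≤ ∫ y : Fin m → ℝ, mm 1 y := integral_nonneg fun y => mm_nonneg 1 y
  positivity

lemma mm_integrable {R : ℝ} (hR : 0 < R) : Integrable (mm R : (Fin m → ℝ) → ℝ) :=
  (continuous_mm R).integrable_of_hasCompactSupport (mm_hasCompactSupport hR)

lemma ph_integrable {R : ℝ} (hR : 0 < R) : Integrable (ph R : (Fin m → ℝ) → ℝ) :=
  (ph_contDiff R).continuous.integrable_of_hasCompactSupport (ph_hasCompactSupport hR)

/-- Lower bound for the energy of the profile. -/
theorem profile_energy_ge (p : Fin (m + 1)) {R : ℝ} (hR : 0 < R) :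
    Psi 1 * (∫ y : Fin m → ℝ, ph 1 y) * R ^ m
      ≤ (∫ x, en (GG p) x * ph R x) + KB m * (R ^ m / R ^ 2) := by
  set F : (Fin (m + 1) → ℝ) → ℝ := fun x => wd (x p) * ph R x with hF
  have hen : ∀ x, en (GG p) x * ph R x = F x := by
    intro x
    rw [en_GG]; rfl
  have cF : Continuous F :=
    (wd_continuous.comp (continuous_apply p)).mul (ph_contDiff R).continuous
  have iF : Integrable F :=
    cF.integrable_of_hasCompactSupport (ph_hasCompactSupport hR).mul_left
  simp_rw [hen]
  rw [integral_insertNth p iF]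
  have e1 : ∀ s, ∫ y : Fin m → ℝ, F (p.insertNth s y)
      = wd s * ∫ y : Fin m → ℝ, ph R (p.insertNth s y : Fin (m + 1) → ℝ) := by
    intro s
    rw [← integral_const_mul]
    refine integral_congr_ae (Eventually.of_forall fun y => ?_)
    simp only [hF, Fin.insertNth_apply_same]
  simp_rw [e1]
  set A : ℝ := ∫ y : Fin m → ℝ, ph R y with hA
  set B : ℝ := ∫ y : Fin m → ℝ, mm R y with hB
  -- slices
  have cins : ∀ s : ℝ, Continuous (fun y : Fin m → ℝ => (p.insertNth s y : Fin (m + 1) → ℝ)) := by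
    intro s
    exact Continuous.finInsertNth p continuous_const continuous_id
  have islice : ∀ s, Integrable (fun y : Fin m → ℝ => ph R (p.insertNth s y : Fin (m + 1) → ℝ)) := by
    intro s
    apply Continuous.integrable_of_hasCompactSupport
    · exact (ph_contDiff R).continuous.comp (cins s)
    · apply HasCompactSupport.intro (isCompact_box (n := m) R)
      intro y hy
      rw [mem_box] at hy
      push Not at hy
      obtain ⟨i, hi⟩ := hy
      unfold ph
      rw [mm_eq_zero hR]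
      · simp
      · rw [esq_insertNth]
        have h1 := sq_le_esq y i
        have h2 : R ^ 2 ≤ |y i| ^ 2 := pow_le_pow_left₀ hR.le hi.le 2
        rw [sq_abs] at h2
        nlinarith [sq_nonneg s]
  have hslice : ∀ s, A - 2 * (s ^ 2 / R ^ 2) * B
      ≤ ∫ y : Fin m → ℝ, ph R (p.insertNth s y : Fin (m + 1) → ℝ) := by
    intro s
    have h1 : ∫ y : Fin m → ℝ, (ph R y - 2 * (s ^ 2 / R ^ 2) * mm R y)
        = A - 2 * (s ^ 2 / R ^ 2) * B := by
      rw [integral_sub (ph_integrable hR) ((mm_integrable hR).const_mul _), integral_const_mul]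
    rw [← h1]
    exact integral_mono ((ph_integrable hR).sub ((mm_integrable hR).const_mul _)) (islice s)
      (fun y => ph_insertNth_ge p hR s y)
  -- outer integral
  have iouter : Integrable (fun s => wd s * ∫ y : Fin m → ℝ, ph R (p.insertNth s y : Fin (m + 1) → ℝ)) := by
    have h := volume_preserving_piFinSuccAbove (fun _ : Fin (m + 1) => ℝ) p
    have i2 : Integrable (fun z : ℝ × (Fin m → ℝ) =>
        F ((MeasurableEquiv.piFinSuccAbove (fun _ : Fin (m + 1) => ℝ) p).symm z)) :=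
      h.symm.integrable_comp_of_integrable iF
    have e2 : (volume : Measure (ℝ × (Fin m → ℝ))) = (volume : Measure ℝ).prod volume := rfl
    rw [e2] at i2
    have i3 := i2.integral_prod_left
    refine i3.congr (Eventually.of_forall fun s => ?_)
    exact e1 s
  have ilow : Integrable (fun s => A * wd s - (2 * B / R ^ 2) * (s ^ 2 * wd s)) :=
    (wd_integrable.const_mul A).sub (sq_mul_wd_integrable.const_mul _)
  have hfin : ∫ s, (A * wd s - (2 * B / R ^ 2) * (s ^ 2 * wd s))
      ≤ ∫ s, wd s * ∫ y : Fin m → ℝ, ph R (p.insertNth s y : Fin (m + 1) → ℝ) := by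
    apply integral_mono ilow iouter
    intro s
    have h1 := mul_le_mul_of_nonneg_left (hslice s) (wd_nonneg s)
    refine le_trans (le_of_eq ?_) h1
    field_simp
    try ring
  rw [integral_sub (wd_integrable.const_mul A) (sq_mul_wd_integrable.const_mul _),
    integral_const_mul, integral_const_mul, integral_wd] at hfin
  have hA' : A = R ^ m * ∫ y : Fin m → ℝ, ph 1 y := integral_ph hR
  have hB' : B = R ^ m * ∫ y : Fin m → ℝ, mm 1 y := integral_mm hR
  have e3 : KB m * (R ^ m / R ^ 2) = 2 * B / R ^ 2 * ∫ s, s ^ 2 * wd s := by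
    rw [hB']; unfold KB; ring
  have e4 : Psi 1 * (∫ y : Fin m → ℝ, ph 1 y) * R ^ m = A * Psi 1 := by rw [hA']; ring
  rw [e3, e4]
  linarith

/-- OUT1 gives the comparison with the profile. -/
theorem bridge {u : (Fin (m + 1) → ℝ) → ℝ}
    (h : ∀ R : ℝ, 0 < R → ∫ x, en u x * ph R x ≤ Psi 1 * (∫ y : Fin m → ℝ, ph 1 y) * R ^ m)
    (p : Fin (m + 1)) {R : ℝ} (hR : 0 < R) :
    TT (fun _ => 1) u R ≤ TT (fun _ => 1) (GG p) R + KB m / R ^ 2 := by
  rw [TT_one_eq, TT_one_eq]
  have e : m + 1 - 1 = m := by omega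
  rw [e, div_add' _ _ _ (by positivity), div_le_div_iff_of_pos_right (by positivity)]
  have h1 := h R hR
  have h2 := profile_energy_ge p hR
  have e2 : KB m / R ^ 2 * R ^ m = KB m * (R ^ m / R ^ 2) := by ring
  rw [e2]
  linarith

end Vale.Agent.P134.H787
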