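import Vale.Agent.P134.H919.Mono
import Vale.Agent.P134.SM.Ident

set_option linter.all false

/-! Mean value inequality for nonnegative weights (dyadic form), step 7 of the blueprint M4. -/

open MeasureTheory Filter Topology

namespace Vale.Agent.P134.H787

open Vale.Agent.P134 Vale.Agent.P134.SM Vale.Agent.P134.H919

variable {n : ℕ} {u h g : (Fin n → ℝ) → ℝ}

/-- Euclidean length of the gradient. -/
noncomputable def gn (h : (Fin n → ℝ) → ℝ) (x : Fin n → ℝ) : ℝ := Real.sqrt (gs h x)

lemma gn_nonneg (h : (Fin n → ℝ) → ℝ) (x : Fin n → ℝ) : 0 ≤ gn h x := Real.sqrt_nonneg _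

lemma gn_sq (h : (Fin n → ℝ) → ℝ) (x : Fin n → ℝ) : gn h x ^ 2 = gs h x :=
  Real.sq_sqrt (gs_nonneg h x)

lemma gs_continuous (hh : ContDiff ℝ 1 h) : Continuous (gs h) := by
  unfold gs
  exact continuous_finsetSum _ fun i _ => (continuous_pd hh).pow 2

lemma gn_continuous (hh : ContDiff ℝ 1 h) : Continuous (gn h) := (gs_continuous hh).sqrt

lemma gn_shift (h : (Fin n → ℝ) → ℝ) (y x : Fin n → ℝ) :
    gn (fun z => h (z + y)) x = gn h (x + y) := by
  unfold gn gs
  simp_rw [pd_translate]

lemma gs_shift (h : (Fin n → ℝ) → ℝ) (y x : Fin n → ℝ) :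
    gs (fun z => h (z + y)) x = gs h (x + y) := by
  unfold gs
  simp_rw [pd_translate]

lemma psi_shift (u : (Fin n → ℝ) → ℝ) (y x : Fin n → ℝ) :
    psi (fun z => u (z + y)) x = psi u (x + y) := rfl

lemma abs_gg_le (f g : (Fin n → ℝ) → ℝ) (x : Fin n → ℝ) : |gg f g x| ≤ gn f x * gn g x := by
  have h1 := gg_sq_le f g x
  apply abs_le_of_sq_le_sq _ (mul_nonneg (gn_nonneg _ _) (gn_nonneg _ _))
  rw [mul_pow, gn_sq, gn_sq]; exact h1

lemma deriv_th_nonpos (t : ℝ) : deriv th t ≤ 0 := by
  have : Antitone th := fun a b hab => Real.smoothTransition.monotone (by linarith)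
  exact this.deriv_nonpos

lemma abs_sum_mul_le (a b : Fin n → ℝ) :
    |∑ i, a i * b i| ≤ Real.sqrt (∑ i, a i ^ 2) * Real.sqrt (∑ i, b i ^ 2) := by
  have h1 : (∑ i, a i * b i) ^ 2 ≤ (∑ i, a i ^ 2) * ∑ i, b i ^ 2 :=
    Finset.sum_mul_sq_le_sq_mul_sq _ _ _
  apply abs_le_of_sq_le_sq _ (by positivity)
  rw [mul_pow, Real.sq_sqrt (Finset.sum_nonneg fun _ _ => sq_nonneg _),
    Real.sq_sqrt (Finset.sum_nonneg fun _ _ => sq_nonneg _)]
  exact h1

/-- The tangential term of the mean value formula. -/
lemma cross_le (hu : Sol u) (h : (Fin n → ℝ) → ℝ) (x : Fin n → ℝ) :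
    |en u x * (∑ i, x i * pd i h x) - sx u x * (∑ i, pd i u x * pd i h x)|
      ≤ 2 * (en u x * (Real.sqrt (rho Finset.univ x) * gn h x)) := by
  have hen0 := en_nonneg u x
  have hgs : gs u x ≤ en u x := by
    have h1 := hu.defi_nonneg x
    rw [defi_eq] at h1
    unfold en
    have : (1 - u x ^ 2) ^ 2 / 4 = psi u x ^ 2 / 4 := rfl
    unfold psi at h1
    unfold gs at h1 ⊢
    linarith
  have a1 : |∑ i, x i * pd i h x| ≤ Real.sqrt (rho Finset.univ x) * gn h x :=
    abs_sum_mul_le x (fun i => pd i h x)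
  have a2 : |∑ i, pd i u x * pd i h x| ≤ gn u x * gn h x :=
    abs_sum_mul_le (fun i => pd i u x) (fun i => pd i h x)
  have a3 : |sx u x| ≤ Real.sqrt (rho Finset.univ x) * gn u x :=
    abs_sum_mul_le x (fun i => pd i u x)
  have b1 : |en u x * (∑ i, x i * pd i h x)| ≤ en u x * (Real.sqrt (rho Finset.univ x) * gn h x) := by
    rw [abs_mul, abs_of_nonneg hen0]
    exact mul_le_mul_of_nonneg_left a1 hen0
  have b2 : |sx u x * (∑ i, pd i u x * pd i h x)|
      ≤ en u x * (Real.sqrt (rho Finset.univ x) * gn h x) := by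
    rw [abs_mul]
    calc |sx u x| * |∑ i, pd i u x * pd i h x|
        ≤ (Real.sqrt (rho Finset.univ x) * gn u x) * (gn u x * gn h x) :=
          mul_le_mul a3 a2 (abs_nonneg _) (mul_nonneg (Real.sqrt_nonneg _) (gn_nonneg _ _))
      _ = gs u x * (Real.sqrt (rho Finset.univ x) * gn h x) := by rw [← gn_sq]; ring
      _ ≤ _ := mul_le_mul_of_nonneg_right hgs (mul_nonneg (Real.sqrt_nonneg _) (gn_nonneg _ _))
  exact (abs_sub _ _).trans (by linarith)

lemma rho_le_of_mem {n : ℕ} {x : Fin n → ℝ} {r : ℝ} (hr : 0 ≤ r) (h : rho Finset.univ x ≤ r ^ 2) :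
    x ∈ box n r := by
  rw [mem_box]
  intro i
  apply abs_le_of_sq_le_sq _ hr
  exact (sq_le_rho (Finset.mem_univ i) x).trans h

/-- Lower bound of the derivative for nonnegative weights. -/
theorem dMh_ge (hu : Sol u) (hh : ContDiff ℝ 1 h) (h0 : ∀ x, 0 ≤ h x) {R : ℝ} (hR : 0 < R) :
    - (3 * R * ∫ x in box n (2 * R), en u x * gn h x) ≤ dMh u h th R := by
  have hcont : Continuous (fun x => en u x * gn h x) :=
    (en_contDiff hu.c2).continuous.mul (gn_continuous hh)
  rw [← integral_const_mul, ← integral_neg, ← integral_indicator (isCompact_box _).measurableSet]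
  unfold dMh
  have cphi := cr_contDiff (n := n) th_contDiff R
  have sphi := cr_hasCompactSupport (n := n) (Φ := th) (fun t ht => th_zero ht) hR
  have cpu : ∀ j, Continuous (pd j u) := fun j => (contDiff_pd_one hu.c2).continuous
  have hrc : Continuous (rho (n := n) Finset.univ) := (rho_contDiff (k := 0) _).continuous
  have hdc : Continuous (deriv th) := th_contDiff.continuous_deriv (by norm_num)
  have csx := sx_continuous (u := u) (hu.c2.of_le (by norm_num))
  have cen := (en_contDiff hu.c2).continuous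
  have cph : ∀ j, Continuous (pd j h) := fun j => continuous_pd hh
  have c1 : Continuous (fun x => ∑ i, pd i u x * pd i h x) :=
    continuous_finsetSum _ fun i _ => (cpu i).mul (cph i)
  have c2 : Continuous (fun x : Fin n → ℝ => ∑ i, x i * pd i h x) :=
    continuous_finsetSum _ fun i _ => (continuous_apply i).mul (cph i)
  have c3 : Continuous (fun x : Fin n → ℝ => deriv th (rho Finset.univ x / R ^ 2)) :=
    hdc.comp (hrc.div_const _)
  have hz : ∀ x : Fin n → ℝ, ¬ rho Finset.univ x ≤ 2 * R ^ 2 →
      cr th R x = 0 ∧ deriv th (rho Finset.univ x / R ^ 2) = 0 := by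
    intro x hx
    have : 2 ≤ rho Finset.univ x / R ^ 2 := by
      rw [le_div_iff₀ (by positivity)]
      exact (not_le.mp hx).le
    exact ⟨th_zero this, deriv_zero_of_ge th_contDiff (fun t ht => th_zero ht) this⟩
  have hR2 : 0 < R ^ 2 := by positivity
  have key : ∀ x, (box n (2 * R)).indicator (fun x => - (3 * R * (en u x * gn h x))) x
      ≤ (cr th R x * (h x * (defi u x / 2))
        - 2 / R ^ 2 * (deriv th (rho Finset.univ x / R ^ 2) * (h x * sx u x ^ 2))
        + cr th R x * (en u x * (∑ i, x i * pd i h x) - sx u x * (∑ i, pd i u x * pd i h x))) := by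
    intro x
    have hnn : 0 ≤ en u x * gn h x := mul_nonneg (en_nonneg u x) (gn_nonneg _ _)
    by_cases hx : rho Finset.univ x ≤ 2 * R ^ 2
    · have hmem : x ∈ box n (2 * R) := rho_le_of_mem (by positivity) (by nlinarith)
      rw [Set.indicator_of_mem hmem]
      have t1 : 0 ≤ cr th R x * (h x * (defi u x / 2)) :=
        mul_nonneg (th_nonneg _) (mul_nonneg (h0 x) (by linarith [hu.defi_nonneg x]))
      have t2 : 0 ≤ - (2 / R ^ 2 * (deriv th (rho Finset.univ x / R ^ 2) * (h x * sx u x ^ 2))) := by
        have h1 : deriv th (rho Finset.univ x / R ^ 2) * (h x * sx u x ^ 2) ≤ 0 :=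
          mul_nonpos_of_nonpos_of_nonneg (deriv_th_nonpos _) (mul_nonneg (h0 x) (sq_nonneg _))
        have h2 : (0:ℝ) ≤ 2 / R ^ 2 := by positivity
        nlinarith [mul_nonneg h2 (neg_nonneg.mpr h1)]
      have t3 := cross_le hu h x
      have hcr0 : 0 ≤ cr th R x := th_nonneg _
      have hcr1 : cr th R x ≤ 1 := th_le_one _
      have hsq : Real.sqrt (rho Finset.univ x) ≤ 3 / 2 * R := by
        rw [Real.sqrt_le_left (by positivity)]
        nlinarith
      have t4 : 2 * (en u x * (Real.sqrt (rho Finset.univ x) * gn h x))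
          ≤ 3 * R * (en u x * gn h x) := by
        have : Real.sqrt (rho Finset.univ x) * (en u x * gn h x) ≤ 3 / 2 * R * (en u x * gn h x) :=
          mul_le_mul_of_nonneg_right hsq hnn
        linarith
      have t5 := abs_le.mp (t3.trans t4)
      have t6 : - (3 * R * (en u x * gn h x)) ≤ cr th R x *
          (en u x * (∑ i, x i * pd i h x) - sx u x * (∑ i, pd i u x * pd i h x)) := by
        have h3 : 0 ≤ 3 * R * (en u x * gn h x) := by positivity
        have h4 := t5.1
        by_cases hs : 0 ≤ en u x * (∑ i, x i * pd i h x) - sx u x * (∑ i, pd i u x * pd i h x)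
        · have := mul_nonneg hcr0 hs
          linarith
        · have hs' := (not_le.mp hs).le
          have : (1 - cr th R x) * (en u x * (∑ i, x i * pd i h x)
              - sx u x * (∑ i, pd i u x * pd i h x)) ≤ 0 :=
            mul_nonpos_of_nonneg_of_nonpos (by linarith) hs'
          linarith
      linarith
    · obtain ⟨z1, z2⟩ := hz x hx
      rw [z1, z2]
      simp only [zero_mul, mul_zero, sub_zero, add_zero]
      apply Set.indicator_nonpos
      intro y _
      have : 0 ≤ en u y * gn h y := mul_nonneg (en_nonneg u y) (gn_nonneg _ _)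
      have : 0 ≤ 3 * R * (en u y * gn h y) := by positivity
      linarith
  apply integral_mono _ _ key
  · rw [integrable_indicator_iff (isCompact_box _).measurableSet]
    exact (continuous_const.mul hcont).neg.continuousOn.integrableOn_compact (isCompact_box _)
  · apply Continuous.integrable_of_hasCompactSupport
    · exact ((cphi.continuous.mul (hh.continuous.mul (hu.defi_continuous.div_const 2))).sub
        (continuous_const.mul (c3.mul (hh.continuous.mul (csx.pow 2))))).add
        (cphi.continuous.mul ((cen.mul c2).sub (csx.mul c1)))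
    · apply HasCompactSupport.intro (isCompact_rho_le (2 * R ^ 2))
      intro x hx
      rw [(hz x hx).1, (hz x hx).2]; simp

/-- One dyadic step of the mean value inequality. -/
theorem Mh_step {u h : (Fin 4 → ℝ) → ℝ} (hu : Sol u) (hh : ContDiff ℝ 1 h) (h0 : ∀ x, 0 ≤ h x)
    {R : ℝ} (hR : 0 < R) :
    Mh u h th R ≤ Mh u h th (2 * R)
      + 3 / R ^ 2 * ∫ x in box 4 (4 * R), en u x * gn h x := by
  set K : ℝ := ∫ x in box 4 (4 * R), en u x * gn h x with hK
  have hcont : Continuous (fun x => en u x * gn h x) :=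
    (en_contDiff hu.c2).continuous.mul (gn_continuous hh)
  have hnn : ∀ x, 0 ≤ en u x * gn h x := fun x => mul_nonneg (en_nonneg u x) (gn_nonneg _ _)
  have hK0 : 0 ≤ K := by
    rw [hK]
    exact setIntegral_nonneg (isCompact_box _).measurableSet fun x _ => hnn x
  have hd : ∀ S : ℝ, 0 < S → HasDerivAt (Mh u h th) (dMh u h th S / S ^ 4) S := fun S hS =>
    hasDerivAt_Mh (by norm_num) hu th_contDiff (fun t ht => th_zero ht) hh hS
  have hmono : MonotoneOn (fun S => Mh u h th S + 3 / R ^ 3 * K * S) (Set.Icc R (2 * R)) := by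
    apply monotoneOn_of_deriv_nonneg (convex_Icc _ _)
    · apply ContinuousOn.add
      · intro S hS
        exact (hd S (lt_of_lt_of_le hR hS.1)).continuousAt.continuousWithinAt
      · exact (continuous_const.mul continuous_id).continuousOn
    · intro S hS
      rw [interior_Icc] at hS
      exact ((hd S (hR.trans hS.1)).add
        ((hasDerivAt_id S).const_mul (3 / R ^ 3 * K))).differentiableAt.differentiableWithinAt
    · intro S hS
      rw [interior_Icc] at hS
      have hS0 : 0 < S := hR.trans hS.1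
      have e := ((hd S hS0).add ((hasDerivAt_id S).const_mul (3 / R ^ 3 * K))).deriv
      have e' : deriv (fun S => Mh u h th S + 3 / R ^ 3 * K * S) S
          = dMh u h th S / S ^ 4 + 3 / R ^ 3 * K * 1 := e
      rw [e', mul_one]
      have h1 := dMh_ge hu hh h0 hS0
      have h2 : ∫ x in box 4 (2 * S), en u x * gn h x ≤ K := by
        apply setIntegral_mono_set
        · exact hcont.continuousOn.integrableOn_compact (isCompact_box _)
        · exact Eventually.of_forall hnn
        · apply Eventually.of_forall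
          intro x hx
          have hx' := mem_box.mp hx
          exact mem_box.mpr fun i => (hx' i).trans (by linarith [hS.2])
      have h3 : - (3 * S * K) ≤ dMh u h th S := by
        have := mul_le_mul_of_nonneg_left h2 (show 0 ≤ 3 * S by positivity)
        linarith
      have h4 : - (3 / R ^ 3 * K) ≤ dMh u h th S / S ^ 4 := by
        have h5 : - (3 * S * K) / S ^ 4 ≤ dMh u h th S / S ^ 4 :=
          div_le_div_of_nonneg_right h3 (by positivity)
        have h6 : 3 * S * K / S ^ 4 ≤ 3 / R ^ 3 * K := by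
          have e1 : 3 * S * K / S ^ 4 = 3 / S ^ 3 * K := by field_simp
          rw [e1]
          apply mul_le_mul_of_nonneg_right _ hK0
          apply div_le_div_of_nonneg_left (by norm_num) (by positivity)
          exact pow_le_pow_left₀ hR.le hS.1.le 3
        have e2 : - (3 * S * K) / S ^ 4 = - (3 * S * K / S ^ 4) := by ring
        rw [e2] at h5
        linarith
      linarith
  have hm := hmono (Set.left_mem_Icc.mpr (by linarith)) (Set.right_mem_Icc.mpr (by linarith))
    (show R ≤ 2 * R by linarith)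
  simp only at hm
  have e3 : 3 / R ^ 3 * K * (2 * R) - 3 / R ^ 3 * K * R = 3 / R ^ 2 * K := by
    field_simp
    ring
  linarith

/-- Dyadic mean value inequality. -/
theorem Mh_sum {u h : (Fin 4 → ℝ) → ℝ} (hu : Sol u) (hh : ContDiff ℝ 1 h) (h0 : ∀ x, 0 ≤ h x)
    (J : ℕ) :
    Mh u h th 1 ≤ Mh u h th (2 ^ J)
      + ∑ j ∈ Finset.range J, 3 / 4 ^ j * ∫ x in box 4 (4 * 2 ^ j), en u x * gn h x := by
  induction J with
  | zero => simp
  | succ J ih =>
      rw [Finset.sum_range_succ]
      have hs := Mh_step hu hh h0 (R := 2 ^ J) (by positivity)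
      have e1 : (2:ℝ) * 2 ^ J = 2 ^ (J + 1) := by ring
      have e2 : ((2:ℝ) ^ J) ^ 2 = 4 ^ J := by
        rw [← pow_mul, mul_comm, pow_mul]; norm_num
      rw [e1, e2] at hs
      linarith

end Vale.Agent.P134.H787
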